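import Vale.Agent.P150.Free

/-!
Adding one spin.
-/

open MeasureTheory ProbabilityTheory Filter Real
open scoped Topology NNReal Classical

namespace Vale.Agent.P150

variable {n : ℕ}

/-- The variance factor of the cavity field. -/
noncomputable def cavK (u : ℝ) : ℝ := exp (u + u ^ 2 / 2) * u ^ 2

/-- Pairs of `n + 1` sites: old pairs, and pairs through the new site. -/
def splitEdge (n : ℕ) : Edge n ⊕ Fin n ≃ Edge (n + 1) where
  toFun
    | .inl e => ⟨(e.1.1.castSucc, e.1.2.castSucc), Fin.castSucc_lt_castSucc_iff.2 e.2⟩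
    | .inr i => ⟨(i.castSucc, Fin.last n), Fin.castSucc_lt_last i⟩
  invFun e :=
    if h : e.1.2 = Fin.last n then .inr (e.1.1.castPred (Fin.ne_last_of_lt e.2))
    else .inl ⟨(e.1.1.castPred (Fin.ne_last_of_lt e.2), e.1.2.castPred h),
      by rw [Fin.castPred_lt_castPred_iff]; exact e.2⟩
  left_inv := by
    rintro (e | i)
    · simp [(Fin.castSucc_lt_last e.1.2).ne]
    · simp
  right_inv := by
    rintro ⟨⟨i, j⟩, hij⟩
    by_cases h : j = Fin.last n
    · subst h; simp
    · simp [h]

lemma gauss_mgf {ι : Type*} [Fintype ι] (c : ι → ℝ) :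
    ∫ g, exp (∑ i, g i * c i) ∂gauss ι = exp ((∑ i, c i ^ 2) / 2) := by
  simp only [exp_sum, gauss]
  rw [integral_fintype_prod_eq_prod (fun i s => exp (s * c i)), Finset.sum_div, exp_sum]
  refine Finset.prod_congr rfl fun i _ => ?_
  have := congrFun (mgf_id_gaussianReal (μ := 0) (v := 1)) (c i)
  simp [mgf] at this
  simp only [mul_comm _ (c i)]
  exact this

lemma integrable_gauss_exp {ι : Type*} [Fintype ι] (c : ι → ℝ) :
    Integrable (fun g : ι → ℝ => exp (∑ i, g i * c i)) (gauss ι) := by
  simp only [exp_sum, mul_comm _ (c _)]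
  exact Integrable.fintype_prod fun i => integrable_exp_mul_gaussianReal _

lemma sum_sq_spin (x : Conf n) (b : ℝ) : ∑ i, (b * spin x i) ^ 2 = b ^ 2 * n := by
  have : ∀ i, (b * spin x i) ^ 2 = b ^ 2 := fun i => by unfold spin; split_ifs <;> ring
  simp [this]; ring

/-- The field on the new spin. -/
def fieldNew (n : ℕ) (b : ℝ) (i : Fin n) (x : Conf n) : ℝ := b * spin x i

lemma integral_cosh_field (b : ℝ) (x : Conf n) :
    Integrable (fun g => cosh (wsum (fieldNew n b) g x)) (gauss (Fin n)) ∧
      ∫ g, cosh (wsum (fieldNew n b) g x) ∂gauss (Fin n) = exp (b ^ 2 * n / 2) := by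
  have e : (fun g => cosh (wsum (fieldNew n b) g x)) = fun g =>
      (exp (∑ i, g i * (b * spin x i)) + exp (∑ i, g i * (-b * spin x i))) / 2 := funext fun g => by
    rw [cosh_eq, wsum, ← Finset.sum_neg_distrib]; simp [fieldNew]
  refine ⟨?_, ?_⟩
  · rw [e]; exact ((integrable_gauss_exp _).add (integrable_gauss_exp _)).div_const 2
  · rw [e, integral_div, integral_add (integrable_gauss_exp _) (integrable_gauss_exp _), gauss_mgf,
      gauss_mgf, sum_sq_spin, sum_sq_spin, neg_sq]
    ring

lemma cosh_le_one_add {t T : ℝ} (ht : |t| ≤ T) :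
    cosh t ≤ 1 + t ^ 2 / 2 * exp (T ^ 2 / 2) := by
  have h1 := cosh_le_exp_half_sq t
  have h2 : t ^ 2 ≤ T ^ 2 := by rw [← sq_abs t]; exact pow_le_pow_left₀ (abs_nonneg _) ht 2
  have h3 : exp (t ^ 2 / 2) ≤ exp (T ^ 2 / 2) := exp_le_exp.2 (by linarith)
  have h4 := add_one_le_exp (-(t ^ 2 / 2))
  have h5 : exp (t ^ 2 / 2) * exp (-(t ^ 2 / 2)) = 1 := by rw [← exp_add]; simp
  have h6 := mul_le_mul_of_nonneg_left h4 (exp_pos (t ^ 2 / 2)).le
  nlinarith [mul_le_mul_of_nonneg_left h3 (div_nonneg (sq_nonneg t) (zero_le_two (α := ℝ)))]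

lemma integral_cosh_mul_le (b : ℝ) (x y : Conf n) :
    Integrable (fun g => cosh (wsum (fieldNew n b) g x) * cosh (wsum (fieldNew n b) g y))
        (gauss (Fin n)) ∧
      ∫ g, cosh (wsum (fieldNew n b) g x) * cosh (wsum (fieldNew n b) g y) ∂gauss (Fin n)
        ≤ exp (b ^ 2 * n) * (1 + (b ^ 2 * (∑ i, spin x i * spin y i)) ^ 2 / 2
            * exp ((b ^ 2 * n) ^ 2 / 2)) := by
  set c : ℝ → ℝ → Fin n → ℝ := fun p q i => p * (b * spin x i) + q * (b * spin y i)
  set E : ℝ → ℝ → (Fin n → ℝ) → ℝ := fun p q g => exp (∑ i, g i * c p q i)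
  have hE : ∀ p q g, E p q g = exp (p * wsum (fieldNew n b) g x + q * wsum (fieldNew n b) g y) := by
    intro p q g
    simp only [E, c, wsum, fieldNew, Finset.mul_sum, ← Finset.sum_add_distrib]
    exact congrArg exp (Finset.sum_congr rfl fun i _ => by ring)
  have e : (fun g => cosh (wsum (fieldNew n b) g x) * cosh (wsum (fieldNew n b) g y))
      = fun g => (E 1 1 g + E 1 (-1) g + E (-1) 1 g + E (-1) (-1) g) / 4 := funext fun g => by
    simp only [hE, exp_add, cosh_eq, one_mul, neg_one_mul]; ring
  have hi : ∀ p q, Integrable (E p q) (gauss (Fin n)) := fun p q => integrable_gauss_exp _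
  have hv : ∀ p q : ℝ, p ^ 2 = 1 → q ^ 2 = 1 → ∫ g, E p q g ∂gauss (Fin n)
      = exp (b ^ 2 * n + p * q * (b ^ 2 * ∑ i, spin x i * spin y i)) := by
    intro p q hp hq
    rw [gauss_mgf]
    congr 1
    have : ∀ i, c p q i ^ 2 = 2 * b ^ 2 + 2 * (p * q * (b ^ 2 * (spin x i * spin y i))) := fun i => by
      have hx : spin x i ^ 2 = 1 := by unfold spin; split_ifs <;> norm_num
      have hy : spin y i ^ 2 = 1 := by unfold spin; split_ifs <;> norm_num
      simp only [c]
      linear_combination (b ^ 2 * spin x i ^ 2) * hp + (b ^ 2 * spin y i ^ 2) * hq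
        + b ^ 2 * hx + b ^ 2 * hy
    simp only [this, Finset.sum_add_distrib, ← Finset.mul_sum, Finset.sum_const, Finset.card_univ,
      Fintype.card_fin, nsmul_eq_mul]
    ring
  refine ⟨?_, ?_⟩
  · rw [e]; exact ((((hi _ _).add (hi _ _)).add (hi _ _)).add (hi _ _)).div_const 4
  · set O := ∑ i, spin x i * spin y i
    have hT : |b ^ 2 * O| ≤ b ^ 2 * n := by
      rw [abs_mul, abs_of_nonneg (sq_nonneg b)]
      exact mul_le_mul_of_nonneg_left (abs_overlap x y) (sq_nonneg b)
    have i2 : Integrable (fun g => E 1 1 g + E 1 (-1) g) (gauss (Fin n)) := (hi _ _).add (hi _ _)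
    have i3 : Integrable (fun g => E 1 1 g + E 1 (-1) g + E (-1) 1 g) (gauss (Fin n)) :=
      i2.add (hi _ _)
    rw [e, integral_div, integral_add i3 (hi _ _), integral_add i2 (hi _ _),
      integral_add (hi _ _) (hi _ _),
      hv _ _ (by norm_num) (by norm_num), hv _ _ (by norm_num) (by norm_num),
      hv _ _ (by norm_num) (by norm_num), hv _ _ (by norm_num) (by norm_num)]
    refine le_trans (le_of_eq ?_) (mul_le_mul_of_nonneg_left (cosh_le_one_add hT) (exp_pos _).le)
    simp only [cosh_eq, exp_add, one_mul, mul_one, neg_mul, mul_neg, neg_neg]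
    ring

lemma cavity_inner (v : Conf n → ℝ) (b : ℝ) {η : ℝ} (hη : 0 < η) :
    Integrable (fun g => log (gAvg v fun x => cosh (wsum (fieldNew n b) g x))) (gauss (Fin n)) ∧
    b ^ 2 * n / 2 - η / 2 - exp (b ^ 2 * n + (b ^ 2 * n) ^ 2 / 2) * b ^ 4 / (4 * η)
        * gAvg2 v (fun x y => (∑ i, spin x i * spin y i) ^ 2)
      ≤ ∫ g, log (gAvg v fun x => cosh (wsum (fieldNew n b) g x)) ∂gauss (Fin n) := by
  set u := b ^ 2 * n with hu
  set μ := exp (u / 2) with hμ
  set B : (Fin n → ℝ) → ℝ := fun g => gAvg v fun x => cosh (wsum (fieldNew n b) g x) with hB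
  have hu0 : 0 ≤ u := by positivity
  have hμ1 : 1 ≤ μ := one_le_exp (by linarith)
  have hB1 : ∀ g, 1 ≤ B g := fun g => (gAvg_const v 1).ge.trans (gAvg_mono fun x => one_le_cosh _)
  have hBc : Continuous B := by simp only [hB, gAvg]; fun_prop
  have hBi : Integrable B (gauss (Fin n)) := by
    simp only [hB, gAvg]
    exact (integrable_finsetSum _ fun x _ => (integral_cosh_field b x).1.const_mul _).div_const _
  have hBm : ∫ g, B g ∂gauss (Fin n) = μ := by
    simp only [hB, gAvg]
    rw [integral_div, integral_finsetSum _ fun x _ => (integral_cosh_field b x).1.const_mul _]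
    simp only [integral_const_mul, (integral_cosh_field b _).2]
    exact gAvg_const v μ
  have hB2 : ∀ g, B g ^ 2 = gAvg2 v fun x y =>
      cosh (wsum (fieldNew n b) g x) * cosh (wsum (fieldNew n b) g y) := fun g => by
    rw [gAvg2_mul, sq]
  have hi2 : Integrable (fun g => B g ^ 2) (gauss (Fin n)) := by
    simp only [hB2, gAvg2, gAvg]
    exact (integrable_finsetSum _ fun x _ => ((integrable_finsetSum _ fun y _ =>
      (integral_cosh_mul_le b x y).1.const_mul _).div_const _).const_mul _).div_const _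
  have hm2 : ∫ g, B g ^ 2 ∂gauss (Fin n) ≤ exp u + exp (u + u ^ 2 / 2) * b ^ 4 / 2
      * gAvg2 v (fun x y => (∑ i, spin x i * spin y i) ^ 2) := by
    have e1 : ∫ g, B g ^ 2 ∂gauss (Fin n) = gAvg2 v fun x y =>
        ∫ g, cosh (wsum (fieldNew n b) g x) * cosh (wsum (fieldNew n b) g y) ∂gauss (Fin n) := by
      simp only [hB2, gAvg2, gAvg]
      rw [integral_div, integral_finsetSum _ fun x _ => ((integrable_finsetSum _ fun y _ =>
        (integral_cosh_mul_le b x y).1.const_mul _).div_const _).const_mul _]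
      simp only [integral_const_mul, integral_div]
      refine congrArg (· / _) (Finset.sum_congr rfl fun x _ => ?_)
      rw [integral_finsetSum _ fun y _ => (integral_cosh_mul_le b x y).1.const_mul _]
      simp only [integral_const_mul]
    rw [e1]
    refine le_trans (gAvg_mono fun x => gAvg_mono fun y => (integral_cosh_mul_le b x y).2)
      (le_of_eq ?_)
    rw [← hu, exp_add]
    have e2 : ∀ x y : Conf n, exp u * (1 + (b ^ 2 * ∑ i, spin x i * spin y i) ^ 2 / 2 * exp (u ^ 2 / 2))
        = exp u + (exp u * exp (u ^ 2 / 2) * b ^ 4 / 2) * (∑ i, spin x i * spin y i) ^ 2 := fun x y => by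
      ring
    simp only [e2, gAvg2, gAvg_add, gAvg_const, gAvg_const_mul]
  have hli : Integrable (fun g => log (B g)) (gauss (Fin n)) := by
    refine hBi.mono' ((hBc.log fun g => (zero_lt_one.trans_le (hB1 g)).ne').aestronglyMeasurable)
      (ae_of_all _ fun g => ?_)
    rw [norm_eq_abs, abs_of_nonneg (log_nonneg (hB1 g))]
    exact log_le_self (by linarith [hB1 g])
  refine ⟨hli, ?_⟩
  have hdi : Integrable (fun g => (B g - μ) ^ 2) (gauss (Fin n)) := by
    have : (fun g => (B g - μ) ^ 2) = fun g => B g ^ 2 - 2 * μ * B g + μ ^ 2 := funext fun g => by ring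
    rw [this]
    exact (hi2.sub (hBi.const_mul _)).add (integrable_const _)
  have hpt : ∀ g, u / 2 - η / 2 - (B g - μ) ^ 2 / (2 * η) ≤ log (B g) := by
    intro g
    have hb0 : 0 < B g := by linarith [hB1 g]
    have hl : u / 2 - |B g - μ| ≤ log (B g) := by
      rcases le_or_gt μ (B g) with h | h
      · have := log_le_log (by linarith) h
        rw [hμ, log_exp] at this
        linarith [abs_nonneg (B g - μ)]
      · have h1 := log_le_sub_one_of_pos (div_pos (exp_pos (u / 2)) hb0)
        rw [log_div (exp_pos _).ne' hb0.ne', log_exp, ← hμ] at h1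
        have h2 : μ / B g - 1 ≤ |B g - μ| := by
          rw [abs_of_neg (sub_neg.2 h), div_sub_one hb0.ne', div_le_iff₀ hb0]
          nlinarith [hB1 g]
        linarith
    have h3 : |B g - μ| ≤ (B g - μ) ^ 2 / (2 * η) + η / 2 := by
      rw [div_add_div _ _ (by positivity) two_ne_zero, le_div_iff₀ (by positivity)]
      nlinarith [sq_nonneg (|B g - μ| - η), sq_abs (B g - μ)]
    linarith
  refine le_trans ?_ (integral_mono ((integrable_const _).sub (hdi.div_const _)) hli hpt)
  have hsq : ∫ g, (B g - μ) ^ 2 ∂gauss (Fin n) = ∫ g, B g ^ 2 ∂gauss (Fin n) - exp u := by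
    have e3 : (fun g => (B g - μ) ^ 2) = fun g => B g ^ 2 + (-2 * μ) * B g + μ ^ 2 :=
      funext fun g => by ring
    have hμ2 : μ ^ 2 = exp u := by rw [hμ, sq, ← exp_add]; ring_nf
    have i3 : Integrable (fun g => B g ^ 2 + -2 * μ * B g) (gauss (Fin n)) :=
      hi2.add (hBi.const_mul _)
    rw [e3, integral_add i3 (integrable_const _), integral_add hi2 (hBi.const_mul _),
      integral_const_mul, hBm]
    simp only [integral_const, probReal_univ, one_smul]
    linear_combination -hμ2
  rw [integral_sub' (integrable_const _) (hdi.div_const _), integral_div, hsq]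
  simp only [integral_const, probReal_univ, one_smul]
  have h4 := div_le_div_of_nonneg_right hm2 (show (0:ℝ) ≤ 2 * η by positivity)
  rw [add_div] at h4
  rw [sub_div]
  have e5 : exp (u + u ^ 2 / 2) * b ^ 4 / 2 * gAvg2 v (fun x y => (∑ i, spin x i * spin y i) ^ 2) / (2 * η)
      = exp (u + u ^ 2 / 2) * b ^ 4 / (4 * η) * gAvg2 v (fun x y => (∑ i, spin x i * spin y i) ^ 2) := by
    field_simp; ring
  linarith

/-- The increment of the free energy when a spin is added. -/
theorem cavity (hn : 0 < n) (b : ℝ) {η : ℝ} (hη : 0 < η) :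
    free n b + log 2 + b ^ 2 * n / 2 - η / 2
      - cavK (b ^ 2 * n) / (2 * η) * ((∫ g, corr (b * √n) g ∂disorder n) + 1 / (2 * n))
      ≤ free (n + 1) b := by
  have hn' : (0:ℝ) < n := Nat.cast_pos.2 hn
  have hbs : b = b * √n / √n := (mul_div_cancel_right₀ _ (sqrt_pos.2 hn').ne').symm
  set v : (Edge n → ℝ) → Conf n → ℝ := fun g => wsum (pairCoef n b) g with hv
  set B : (Edge n → ℝ) × (Fin n → ℝ) → ℝ := fun q =>
    gAvg (v q.1) fun x => cosh (wsum (fieldNew n b) q.2 x) with hB
  have hT : ∀ g : Edge n ⊕ Fin n → ℝ,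
      lse (wsum (pairCoef (n + 1) b) fun e => g ((splitEdge n).symm e))
        = log 2 + lse (v fun e => g (.inl e)) + log (B (fun e => g (.inl e), fun i => g (.inr i))) := by
    intro g
    have h0 := sum_exp_pos (v fun e => g (.inl e))
    simp only [hB, gAvg]
    rw [log_div, ← lse, add_assoc, add_sub_cancel, ← log_mul two_ne_zero]
    · rw [lse, ← (Fin.snocEquiv fun _ => Bool).sum_comp, Fintype.sum_prod_type, Fintype.sum_bool,
        ← Finset.sum_add_distrib, Finset.mul_sum]
      refine congrArg log (Finset.sum_congr rfl fun x _ => ?_)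
      rw [cosh_eq]
      have e : ∀ σ : Bool, wsum (pairCoef (n + 1) b) (fun e => g ((splitEdge n).symm e))
          (Fin.snocEquiv (fun _ => Bool) (σ, x))
          = v (fun e => g (.inl e)) x
            + (if σ then 1 else -1) * wsum (fieldNew n b) (fun i => g (.inr i)) x := by
        intro σ
        simp only [wsum, hv, Finset.mul_sum]
        rw [← (splitEdge n).sum_comp, Fintype.sum_sum_type]
        simp only [Equiv.symm_apply_apply]
        congr 1 <;> refine Finset.sum_congr rfl fun i _ => ?_ <;>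
          simp [pairCoef, pairSpin, splitEdge, Fin.snocEquiv, spin, fieldNew]
        split_ifs <;> ring
      simp only [e, exp_add, if_true, Bool.false_eq_true, if_false, one_mul, neg_one_mul]
      ring
    · exact (Finset.sum_pos (fun x _ => mul_pos (exp_pos _) (cosh_pos _)) Finset.univ_nonempty).ne'
    · exact (Finset.sum_pos (fun x _ => mul_pos (exp_pos _) (cosh_pos _)) Finset.univ_nonempty).ne'
    · exact h0.ne'
  have hI : free (n + 1) b = ∫ g : Edge n ⊕ Fin n → ℝ,
      (log 2 + lse (v fun e => g (.inl e))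
        + log (B (fun e => g (.inl e), fun i => g (.inr i)))) ∂gauss (Edge n ⊕ Fin n) := by
    simp only [← hT]
    exact (free_of_mp (gauss_reindex (splitEdge n).symm)).symm
  have hv0 := fun g1 => cavity_inner (v g1) b hη
  have hB1 : ∀ q, 1 ≤ B q := fun q => (gAvg_const (v q.1) 1).ge.trans (gAvg_mono fun x => one_le_cosh _)
  have hBc : Continuous fun q => log (B q) := by
    refine Continuous.log ?_ fun q => (zero_lt_one.trans_le (hB1 q)).ne'
    simp only [hB, hv, gAvg]
    refine Continuous.div₀ ?_ ?_ fun q => (sum_exp_pos _).ne' <;>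
      [refine continuous_finsetSum _ fun x _ => Continuous.mul ?_ ?_; refine continuous_finsetSum _ fun x _ => ?_] <;>
      first
        | exact ((continuous_wsum _ x).comp continuous_fst).rexp
        | exact continuous_cosh.comp ((continuous_wsum _ x).comp continuous_snd)
  have hmp : MeasurePreserving (fun g : Edge n ⊕ Fin n → ℝ => (fun e => g (.inl e), fun i => g (.inr i)))
      (gauss (Edge n ⊕ Fin n)) ((gauss (Edge n)).prod (gauss (Fin n))) :=
    measurePreserving_sumPiEquivProdPi fun _ : Edge n ⊕ Fin n => gaussianReal 0 1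
  have hint : Integrable (fun q => log (B q)) ((gauss (Edge n)).prod (gauss (Fin n))) := by
    have hb : Integrable (fun q : (Edge n → ℝ) × (Fin n → ℝ) => |b| * ∑ i, |q.2 i|)
        ((gauss (Edge n)).prod (gauss (Fin n))) :=
      ((integrable_finsetSum _ fun i _ => (integrable_eval i).abs).const_mul |b|).comp_snd _
    refine hb.mono' hBc.aestronglyMeasurable (ae_of_all _ fun q => ?_)
    rw [norm_eq_abs, abs_of_nonneg (log_nonneg (hB1 q))]
    have h1 : B q ≤ exp (|b| * ∑ i, |q.2 i|) := by
      refine (gAvg_mono fun x => ?_).trans_eq (gAvg_const _ _)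
      have hw := abs_wsum_le (a := fieldNew n b) (B := |b|) (fun i x => by
        unfold fieldNew spin; split_ifs <;> simp) q.2 x
      rw [cosh_eq]
      have h2 : exp (wsum (fieldNew n b) q.2 x) ≤ exp (|b| * ∑ i, |q.2 i|) :=
        exp_le_exp.2 ((le_abs_self _).trans hw)
      have h3 : exp (-wsum (fieldNew n b) q.2 x) ≤ exp (|b| * ∑ i, |q.2 i|) :=
        exp_le_exp.2 ((neg_le_abs _).trans hw)
      linarith
    exact (log_le_log (by linarith [hB1 q]) h1).trans_eq (log_exp _)
  have hv1 : Integrable (fun g => lse (v g)) (gauss (Edge n)) :=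
    integrable_lse fun e x => abs_pairCoef b e x
  have hv1' : Integrable (fun g : Edge n ⊕ Fin n → ℝ => lse (v fun e => g (.inl e)))
      (gauss (Edge n ⊕ Fin n)) := gauss_inl.integrable_comp_of_integrable hv1
  have hint' : Integrable (fun g : Edge n ⊕ Fin n → ℝ =>
      log (B (fun e => g (.inl e), fun i => g (.inr i)))) (gauss (Edge n ⊕ Fin n)) :=
    hmp.integrable_comp_of_integrable hint
  have hav : Integrable (fun g => gAvg2 (v g) fun x y => (∑ i, spin x i * spin y i) ^ 2)
      (gauss (Edge n)) := integrable_gAvg2 (B := (n:ℝ) ^ 2) fun x y => by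
    rw [abs_pow]; exact pow_le_pow_left₀ (abs_nonneg _) (abs_overlap x y) 2
  have hO : ∫ g, gAvg2 (v g) (fun x y => (∑ i, spin x i * spin y i) ^ 2) ∂gauss (Edge n)
      = n + 2 * (n:ℝ) ^ 2 * ∫ g, corr (b * √n) g ∂disorder n := by
    have e : ∀ g, gAvg2 (v g) (fun x y => (∑ i, spin x i * spin y i) ^ 2)
        = n + 2 * (n:ℝ) ^ 2 * corr (b * √n) g := by
      intro g
      have e1 : (fun x y : Conf n => (∑ i, spin x i * spin y i) ^ 2)
          = fun x y => (n:ℝ) + 2 * ∑ e, pairSpin x e * pairSpin y e := funext fun x => funext fun y => by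
        rw [sum_pair_mul]; ring
      rw [e1]
      simp only [gAvg2, gAvg_add, gAvg_const, gAvg_const_mul, gAvg_sum]
      simp only [hv, corr]
      conv_lhs => rw [hbs]
      simp only [gAvg_pairCoef]
      have e2 : ∀ e, avg (b * √n) g (fun x => pairSpin x e * avg (b * √n) g (fun y => pairSpin y e))
          = avg (b * √n) g (fun x => pairSpin x e) ^ 2 := fun e => by
        simp only [avg, sq, Finset.sum_mul]
        exact Finset.sum_congr rfl fun x _ => by ring
      simp only [e2]
      field_simp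
    simp only [e]
    have hc : Integrable (fun g => corr (b * √n) g) (gauss (Edge n)) :=
      integrable_gauss_bound (continuous_corr _) (B := 1) fun g => by
        rw [abs_of_nonneg (corr_nonneg _ g)]; exact corr_le_one _ g
    rw [integral_add (integrable_const _) (hc.const_mul _), integral_const_mul, disorder_eq]
    simp
  have h12 : Integrable (fun g : Edge n ⊕ Fin n → ℝ => log 2 + lse (v fun e => g (.inl e)))
      (gauss (Edge n ⊕ Fin n)) := (integrable_const _).add hv1'
  rw [hI, integral_add h12 hint', integral_add (integrable_const _) hv1',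
    show ∫ g : Edge n ⊕ Fin n → ℝ, log (B (fun e => g (.inl e), fun i => g (.inr i))) ∂gauss _
      = ∫ q, log (B q) ∂((gauss (Edge n)).prod (gauss (Fin n))) from
        integral_comp_mp hmp hBc.aestronglyMeasurable,
    integral_prod _ hint]
  have hlow := integral_mono ((integrable_const _).sub (hav.const_mul _)) hint.integral_prod_left
    (fun g => (hv0 g).2)
  rw [integral_sub' (integrable_const _) (hav.const_mul _), integral_const_mul, hO] at hlow
  simp only [integral_const, probReal_univ, one_smul] at hlow ⊢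
  rw [show ∫ g : Edge n ⊕ Fin n → ℝ, lse (v fun e => g (.inl e)) ∂gauss _ = free n b from
    free_of_mp gauss_inl]
  have key : exp (b ^ 2 * n + (b ^ 2 * n) ^ 2 / 2) * b ^ 4 / (4 * η)
        * (n + 2 * (n:ℝ) ^ 2 * ∫ g, corr (b * √n) g ∂disorder n)
      = cavK (b ^ 2 * n) / (2 * η) * ((∫ g, corr (b * √n) g ∂disorder n) + 1 / (2 * n)) := by
    rw [cavK]; field_simp; ring
  linarith

end Vale.Agent.P150
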