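import Vale.Agent.P150.Interp
import Mathlib.Analysis.Subadditive

/-!
The free energy of the Sherrington-Kirkpatrick model and its limit.
-/

open MeasureTheory ProbabilityTheory Filter Real
open scoped Topology NNReal Classical

namespace Vale.Agent.P150

variable {n : ℕ}

/-- The coefficients of the pair couplings at inverse temperature `b`, unscaled. -/
def pairCoef (n : ℕ) (b : ℝ) (e : Edge n) (x : Conf n) : ℝ := b * pairSpin x e

/-- `E log Σ_x exp(b Σ g_e x_e)`. -/
noncomputable def free (n : ℕ) (b : ℝ) : ℝ := ∫ g, lse (wsum (pairCoef n b) g) ∂gauss (Edge n)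

/-- The free energy per spin. -/
noncomputable def fe (n : ℕ) (s : ℝ) : ℝ := free n (s / √n) / n

/-- The mean Gibbs energy per spin. -/
noncomputable def en (n : ℕ) (s : ℝ) : ℝ := (∫ g, avg s g (fun x => energy g x) ∂disorder n) / n

lemma wsum_pairCoef (s : ℝ) (g : Edge n → ℝ) (x : Conf n) :
    wsum (pairCoef n (s / √n)) g x = s * energy g x := by
  simp only [wsum, pairCoef, energy, Finset.mul_sum]
  exact Finset.sum_congr rfl fun e _ => by ring

lemma gAvg_pairCoef (s : ℝ) (g : Edge n → ℝ) (f : Conf n → ℝ) :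
    gAvg (wsum (pairCoef n (s / √n)) g) f = avg s g f := by
  simp only [gAvg, avg, gibbs, wsum_pairCoef, Finset.sum_div]
  exact Finset.sum_congr rfl fun x _ => by ring

lemma abs_pairCoef (b : ℝ) (e : Edge n) (x : Conf n) : |pairCoef n b e x| ≤ |b| := by
  rw [pairCoef, abs_mul, abs_pairSpin, mul_one]

lemma sum_pair_mul (x y : Conf n) :
    ∑ e, pairSpin x e * pairSpin y e = ((∑ i, spin x i * spin y i) ^ 2 - n) / 2 := by
  set a : Fin n → ℝ := fun i => spin x i * spin y i
  have ha : ∀ i, a i * a i = 1 := fun i => by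
    simp only [a, spin]; split_ifs <;> norm_num
  have he : ∑ e : Edge n, pairSpin x e * pairSpin y e
      = ∑ i, ∑ j, if i < j then a i * a j else 0 := by
    rw [← Fintype.sum_prod_type (f := fun p : Fin n × Fin n => if p.1 < p.2 then a p.1 * a p.2 else 0),
      ← Finset.sum_filter,
      Finset.sum_subtype (p := fun p : Fin n × Fin n => p.1 < p.2) _ (fun p => by simp)]
    exact Finset.sum_congr rfl fun e _ => by simp only [a, pairSpin]; ring
  have hs : (∑ i, a i) ^ 2 = ∑ i, ∑ j, ((if i < j then a i * a j else 0)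
      + (if j < i then a j * a i else 0) + if i = j then (1:ℝ) else 0) := by
    rw [sq, Finset.sum_mul_sum]
    refine Finset.sum_congr rfl fun i _ => Finset.sum_congr rfl fun j _ => ?_
    rcases lt_trichotomy i j with h | h | h
    · simp [h, h.not_gt, h.ne]
    · subst h; simp [ha]
    · simp [h, h.not_gt, h.ne', mul_comm]
  rw [he]
  simp only [Finset.sum_add_distrib] at hs
  rw [Finset.sum_comm (f := fun i j => if j < i then a j * a i else 0)] at hs
  simp at hs
  linarith

lemma sum_pair_sub (x y : Conf n) :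
    ∑ e, (1 - pairSpin x e * pairSpin y e) = ((n:ℝ) ^ 2 - (∑ i, spin x i * spin y i) ^ 2) / 2 := by
  rw [Finset.sum_sub_distrib, sum_pair_mul, Finset.sum_const, Finset.card_univ, nsmul_eq_mul,
    mul_one]
  linarith [card_edge_mul_two n]

lemma abs_overlap (x y : Conf n) : |∑ i, spin x i * spin y i| ≤ n := by
  refine (Finset.abs_sum_le_sum_abs _ _).trans_eq ?_
  have : ∀ i, |spin x i * spin y i| = 1 := fun i => by
    simp only [spin]; split_ifs <;> norm_num
  simp [this]

/-- Monotonicity from a nonnegative derivative. -/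
lemma le_of_deriv_nonneg' {F F' : ℝ → ℝ} {u v : ℝ} (huv : u ≤ v)
    (h : ∀ θ, HasDerivAt F (F' θ) θ) (hpos : ∀ θ ∈ Set.Ioo u v, 0 ≤ F' θ) : F u ≤ F v := by
  have hm : MonotoneOn F (Set.Icc u v) :=
    monotoneOn_of_hasDerivWithinAt_nonneg (convex_Icc u v)
      (fun θ _ => (h θ).continuousAt.continuousWithinAt)
      (fun θ _ => (h θ).hasDerivWithinAt) (fun θ hθ => hpos θ (by simpa using hθ))
  exact hm (Set.left_mem_Icc.2 huv) (Set.right_mem_Icc.2 huv) huv

lemma free_congr {ι : Type*} [Fintype ι] {X : Type*} [Fintype X] [Nonempty X] {b : ℝ}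
    {a : ι → X → ℝ} {ρ : (ι → ℝ) → (Edge n → ℝ)} (hπ : MeasurePreserving ρ (gauss ι) (gauss (Edge n)))
    (h : ∀ g, lse (wsum a g) = lse (wsum (pairCoef n b) (ρ g))) :
    ∫ g, lse (wsum a g) ∂gauss ι = free n b := by
  simp only [h]
  exact integral_comp_mp hπ (F := fun g => lse (wsum (pairCoef n b) g))
    (continuous_lse_wsum _).aestronglyMeasurable

lemma free_of_mp {ι : Type*} [Fintype ι] {b : ℝ} {ρ : (ι → ℝ) → (Edge n → ℝ)}
    (hπ : MeasurePreserving ρ (gauss ι) (gauss (Edge n))) :
    ∫ g, lse (wsum (pairCoef n b) (ρ g)) ∂gauss ι = free n b :=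
  integral_comp_mp hπ (F := fun g => lse (wsum (pairCoef n b) g))
    (continuous_lse_wsum _).aestronglyMeasurable

/-- The interpolating coefficients between one system and two smaller ones. -/
noncomputable def splitCoef (n m : ℕ) (b b₁ b₂ c d : ℝ) :
    Edge (n + m) ⊕ (Edge n ⊕ Edge m) → Conf (n + m) → ℝ
  | .inl e, x => c * pairCoef (n + m) b e x
  | .inr (.inl e), x => d * pairCoef n b₁ e (fun i => x (Fin.castAdd m i))
  | .inr (.inr e), x => d * pairCoef m b₂ e (fun i => x (Fin.natAdd n i))

/-- Guerra-Toninelli superadditivity. -/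
theorem free_superadd (s : ℝ) (n m : ℕ) (hn : 0 < n) (hm : 0 < m) :
    free n (s / √n) + free m (s / √m) ≤ free (n + m) (s / √((n + m : ℕ) : ℝ)) := by
  set b := s / √((n + m : ℕ) : ℝ) with hb
  set b₁ := s / √(n : ℝ) with hb₁
  set b₂ := s / √(m : ℝ) with hb₂
  set a : ℝ → _ → Conf (n + m) → ℝ := fun θ => splitCoef n m b b₁ b₂ (sin θ) (cos θ) with ha
  set a' : ℝ → _ → Conf (n + m) → ℝ := fun θ => splitCoef n m b b₁ b₂ (cos θ) (-sin θ) with ha'
  have hbd : ∀ c d : ℝ, |c| ≤ 1 → |d| ≤ 1 → ∀ i x,
      |splitCoef n m b b₁ b₂ c d i x| ≤ |b| + |b₁| + |b₂| := by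
    intro c d hc hd i x
    rcases i with e | e | e <;> simp only [splitCoef, abs_mul] <;>
      [nlinarith [mul_le_mul hc (abs_pairCoef b e x) (abs_nonneg _) zero_le_one, abs_nonneg b₁, abs_nonneg b₂];
       nlinarith [mul_le_mul hd (abs_pairCoef b₁ e (fun i => x (Fin.castAdd m i))) (abs_nonneg _) zero_le_one, abs_nonneg b, abs_nonneg b₂];
       nlinarith [mul_le_mul hd (abs_pairCoef b₂ e (fun i => x (Fin.natAdd n i))) (abs_nonneg _) zero_le_one, abs_nonneg b₁, abs_nonneg b]]
  have hD := fun θ => hasDerivAt_free2 (a := a) (a' := a') (B := |b| + |b₁| + |b₂|)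
    (fun θ i x => by
      rcases i with e | e | e <;> simp only [ha, ha', splitCoef]
      exacts [(hasDerivAt_sin θ).mul_const _, (hasDerivAt_cos θ).mul_const _,
        (hasDerivAt_cos θ).mul_const _])
    (fun θ => hbd _ _ (abs_cos_le_one θ) (by rw [abs_neg]; exact abs_sin_le_one θ)) θ
    (hbd _ _ (abs_sin_le_one θ) (abs_cos_le_one θ))
  have hn' : (0:ℝ) < n := Nat.cast_pos.2 hn
  have hm' : (0:ℝ) < m := Nat.cast_pos.2 hm
  have hkey := le_of_deriv_nonneg' (div_nonneg pi_pos.le (zero_le_two (α := ℝ))) hD fun θ hθ => ?_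
  · have e1 : ∫ g, lse (wsum (a (π / 2)) g) ∂gauss _ = free (n + m) b := by
      refine free_congr gauss_inl fun g => congrArg lse (funext fun x => ?_)
      simp [wsum, ha, splitCoef, pairCoef]
    have e0 : ∫ g, lse (wsum (a 0) g) ∂gauss _ = free n b₁ + free m b₂ := by
      have hp := gauss_inr (ι := Edge (n + m)) (κ := Edge n ⊕ Edge m)
      have h1 := (gauss_inl (ι := Edge n) (κ := Edge m)).comp hp
      have h2 := (gauss_inr (ι := Edge n) (κ := Edge m)).comp hp
      have e : ∀ g, lse (wsum (a 0) g) = lse (wsum (pairCoef n b₁) fun i => g (.inr (.inl i)))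
          + lse (wsum (pairCoef m b₂) fun i => g (.inr (.inr i))) := by
        intro g
        rw [lse, lse, lse, ← log_mul (sum_exp_pos _).ne' (sum_exp_pos _).ne', Finset.sum_mul_sum,
          ← Fintype.sum_prod_type', ← (Fin.appendEquiv n m).sum_comp]
        refine congrArg log (Finset.sum_congr rfl fun p _ => ?_)
        rw [← exp_add]
        congr 1
        simp [wsum, ha, splitCoef, pairCoef, Fin.appendEquiv]
      simp only [e]
      rw [integral_add]
      · exact congrArg₂ (· + ·) (free_of_mp h1) (free_of_mp h2)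
      · exact h1.integrable_comp_of_integrable (integrable_lse fun i x => abs_pairCoef b₁ i x)
      · exact h2.integrable_comp_of_integrable (integrable_lse fun i x => abs_pairCoef b₂ i x)
    rw [e0, e1] at hkey
    exact hkey
  · have hs : 0 ≤ sin θ := sin_nonneg_of_nonneg_of_le_pi hθ.1.le (by linarith [hθ.2, pi_pos])
    have hc : 0 ≤ cos θ := cos_nonneg_of_mem_Icc ⟨by linarith [hθ.1, pi_pos], hθ.2.le⟩
    refine integral_nonneg fun g => le_gAvg2 fun x y => ?_
    rw [Fintype.sum_sum_type, Fintype.sum_sum_type]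
    simp only [ha, ha', splitCoef, pairCoef]
    have p1 : ∀ (k : ℕ) (u c d : ℝ) (z w : Conf k),
        ∑ e, (c * (u * pairSpin z e) * (d * (u * pairSpin z e))
          - c * (u * pairSpin z e) * (d * (u * pairSpin w e)))
        = c * d * u ^ 2 * (((k:ℝ) ^ 2 - (∑ i, spin z i * spin w i) ^ 2) / 2) := by
      intro k u c d z w
      rw [← sum_pair_sub, Finset.mul_sum]
      refine Finset.sum_congr rfl fun e _ => ?_
      linear_combination (c * d * u ^ 2) * pairSpin_sq z e
    rw [p1, p1, p1, hb, hb₁, hb₂]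
    simp only [div_pow, sq_sqrt (Nat.cast_nonneg _), Fin.sum_univ_add, spin]
    push_cast
    set O₁ := ∑ i : Fin n, (if x (Fin.castAdd m i) then (1:ℝ) else -1) *
      if y (Fin.castAdd m i) then 1 else -1
    set O₂ := ∑ i : Fin m, (if x (Fin.natAdd n i) then (1:ℝ) else -1) *
      if y (Fin.natAdd n i) then 1 else -1
    have key : 0 ≤ O₁ ^ 2 / n + O₂ ^ 2 / m - (O₁ + O₂) ^ 2 / (n + m) := by
      have : O₁ ^ 2 / n + O₂ ^ 2 / m - (O₁ + O₂) ^ 2 / (n + m)
          = (O₁ * m - O₂ * n) ^ 2 / (n * m * (n + m)) := by field_simp; ring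
      rw [this]; positivity
    calc (0:ℝ) ≤ sin θ * cos θ * s ^ 2 * (O₁ ^ 2 / n + O₂ ^ 2 / m - (O₁ + O₂) ^ 2 / (n + m)) / 2 := by
          positivity
      _ = _ := by field_simp; ring

lemma fe_eq (hn : 0 < n) (s : ℝ) : free n (s / √n) = n * fe n s := by
  rw [fe, mul_div_cancel₀ _ (Nat.cast_pos.2 hn).ne']

/-- The mean energy in terms of the correlations. -/
lemma en_eq (hn : 0 < n) (s : ℝ) :
    en n s = s * (((n:ℝ) - 1) / (2 * n) - ∫ g, corr s g ∂disorder n) := by
  have hn' : (0:ℝ) < n := Nat.cast_pos.2 hn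
  have h1 : ∀ g, avg s g (fun x => energy g x)
      = (√n)⁻¹ * ∑ e, g e * gAvg (wsum (pairCoef n (s / √n)) g) (fun x => pairSpin x e) := by
    intro g
    simp only [gAvg_pairCoef, avg, energy, Finset.mul_sum]
    rw [Finset.sum_comm]
    exact Finset.sum_congr rfl fun e _ => Finset.sum_congr rfl fun x _ => by ring
  have h2 : ∀ e g, gAvg (wsum (pairCoef n (s / √n)) g)
        (fun x => pairSpin x e * pairCoef n (s / √n) e x) -
        gAvg (wsum (pairCoef n (s / √n)) g) (fun x => pairSpin x e) *
        gAvg (wsum (pairCoef n (s / √n)) g) (pairCoef n (s / √n) e)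
      = s / √n * (1 - avg s g (fun x => pairSpin x e) ^ 2) := by
    intro e g
    have e1 : (fun x => pairSpin x e * pairCoef n (s / √n) e x) = fun _ => s / √n := funext fun x => by
      unfold pairCoef; linear_combination (s / √n) * pairSpin_sq x e
    have e2 : pairCoef n (s / √n) e = fun x => s / √n * pairSpin x e := rfl
    rw [e1, gAvg_const, e2, gAvg_const_mul, ← gAvg_pairCoef]
    ring
  have hi : ∀ e, Integrable (fun g : Edge n → ℝ => avg s g (fun x => pairSpin x e) ^ 2) (gauss _) :=
    fun e => integrable_gauss_bound (by fun_prop) (B := 1) fun g => by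
      rw [abs_pow]; exact pow_le_one₀ (abs_nonneg _) (abs_avg_pair_le s g e)
  have hI : ∫ g, ∑ e, avg s g (fun x => pairSpin x e) ^ 2 ∂gauss (Edge n)
      = (n:ℝ) ^ 2 * ∫ g, corr s g ∂disorder n := by
    rw [disorder_eq, ← integral_const_mul]
    exact integral_congr_ae (ae_of_all _ fun g => by simp only [corr]; field_simp)
  rw [en, disorder_eq, integral_congr_ae (ae_of_all _ h1), integral_const_mul,
    integral_finsetSum _ fun e _ => ?_]
  · simp only [gauss_ibp, h2, integral_const_mul,
      integral_sub (integrable_const 1) (hi _), integral_const, probReal_univ, one_smul]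
    rw [← Finset.mul_sum, Finset.sum_sub_distrib, ← integral_finsetSum _ fun e _ => hi e, hI,
      Finset.sum_const, Finset.card_univ, nsmul_eq_mul, mul_one,
      show (Fintype.card (Edge n) : ℝ) = (n:ℝ) * ((n:ℝ) - 1) / 2 by linarith [card_edge_mul_two n]]
    field_simp
    rw [sq_sqrt hn'.le, disorder_eq]
    ring
  · exact ((integrable_eval e).bdd_mul (continuous_gAvg_wsum _ _).aestronglyMeasurable
      (ae_of_all _ fun g => by
        rw [norm_eq_abs]; exact abs_gAvg_le fun x => (abs_pairSpin x e).le)).congr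
      (ae_of_all _ fun g => mul_comm _ _)

lemma integrable_avg_energy (s : ℝ) :
    Integrable (fun g : Edge n → ℝ => avg s g (fun x => energy g x)) (disorder n) := by
  rw [disorder_eq]
  refine integrable_of_linear_bound ?_ (A := 0) (B := |(√n)⁻¹|) fun g => ?_
  · simp only [avg, gibbs]
    exact continuous_finsetSum _ fun x _ => (((continuous_const.mul (continuous_energy x)).rexp).div₀
      (by fun_prop) fun g => (partition_pos s g).ne').mul (continuous_energy x)
  · rw [zero_add]
    refine abs_avg_le fun x => ?_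
    rw [energy, abs_mul]
    refine mul_le_mul_of_nonneg_left ((Finset.abs_sum_le_sum_abs _ _).trans_eq ?_) (abs_nonneg _)
    simp [abs_mul, abs_pairSpin]

/-- The tangent bound for the free energy per spin. -/
lemma fe_tangent (s r : ℝ) : (r - s) * en n s ≤ fe n r - fe n s := by
  have hi : ∀ b, Integrable (fun g => lse (wsum (pairCoef n b) g)) (gauss (Edge n)) :=
    fun b => integrable_lse fun e x => abs_pairCoef b e x
  have h : (r - s) * ∫ g, avg s g (fun x => energy g x) ∂disorder n
      ≤ free n (r / √n) - free n (s / √n) := by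
    rw [← integral_const_mul, free, free, ← integral_sub (hi _) (hi _), disorder_eq]
    refine integral_mono ((integrable_avg_energy s).const_mul _) ((hi _).sub (hi _)) fun g => ?_
    refine le_trans (le_of_eq ?_) (lse_tangent _ _)
    rw [← gAvg_pairCoef, ← gAvg_const_mul]
    refine congrArg (gAvg _) (funext fun x => ?_)
    rw [wsum_pairCoef, wsum_pairCoef]; ring
  simp only [fe, en]
  rw [div_sub_div_same, mul_div_assoc']
  exact div_le_div_of_nonneg_right h (Nat.cast_nonneg n)

lemma en_le {s : ℝ} (hn : 0 < n) (hs : 0 ≤ s) : en n s ≤ s / 2 := by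
  rw [en_eq hn]
  have h : 0 ≤ ∫ g, corr s g ∂disorder n := integral_nonneg fun g => corr_nonneg s g
  have h2 : ((n:ℝ) - 1) / (2 * n) ≤ 1 / 2 := by
    rw [div_le_div_iff₀ (by positivity) two_pos]; linarith
  calc _ ≤ s * (1 / 2) := mul_le_mul_of_nonneg_left (by linarith) hs
    _ = _ := by ring

end Vale.Agent.P150
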