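import Vale.Agent.P150.Overlap

/-!
Macroscopic correlations force slow relaxation and slow mixing of heat-bath dynamics.
-/

open Finset

namespace Vale.Agent.P150

variable {n : ℕ}

lemma flipAt_flipAt (i : Fin n) (x : Conf n) : flipAt i (flipAt i x) = x := by
  funext j
  by_cases h : j = i
  · subst h; simp [flipAt]
  · simp [flipAt, h]

lemma flipAt_involutive (i : Fin n) : Function.Involutive (flipAt (n := n) i) := flipAt_flipAt i

lemma heatBath_symm (β : ℝ) (g : Edge n → ℝ) (i : Fin n) (f h : Conf n → ℝ) :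
    avg β g (fun x => f x * heatBath β g i h x) = avg β g (fun x => heatBath β g i f x * h x) := by
  simp only [avg, heatBath, LinearMap.coe_mk, AddHom.coe_mk]
  set μ := gibbs β g
  have e1 : ∑ x, μ x * μ (flipAt i x) * f x * h (flipAt i x) / (μ x + μ (flipAt i x)) =
      ∑ x, μ x * μ (flipAt i x) * f (flipAt i x) * h x / (μ x + μ (flipAt i x)) := by
    rw [← Equiv.sum_comp (flipAt_involutive i).toPerm
      (fun x => μ x * μ (flipAt i x) * f x * h (flipAt i x) / (μ x + μ (flipAt i x)))]
    refine sum_congr rfl fun x _ => ?_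
    simp only [Function.Involutive.coe_toPerm, flipAt_flipAt, add_comm (μ (flipAt i x))]
    ring
  calc _ = ∑ x, μ x * μ x * f x * h x / (μ x + μ (flipAt i x)) +
        ∑ x, μ x * μ (flipAt i x) * f x * h (flipAt i x) / (μ x + μ (flipAt i x)) := by
        rw [← sum_add_distrib]; exact sum_congr rfl fun x _ => by ring
    _ = _ := by rw [e1, ← sum_add_distrib]; exact sum_congr rfl fun x _ => by ring

lemma avg_add (β : ℝ) (g : Edge n → ℝ) (f h : Conf n → ℝ) :
    avg β g (fun x => f x + h x) = avg β g f + avg β g h := by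
  simp only [avg, mul_add, sum_add_distrib]

lemma gen_apply (β : ℝ) (g : Edge n → ℝ) (f : Conf n → ℝ) (x : Conf n) :
    gen β g f x = ∑ i, (heatBath β g i f x - f x) := by
  simp [gen, LinearMap.sum_apply, Finset.sum_apply]

lemma gen_symm (β : ℝ) (g : Edge n → ℝ) (f h : Conf n → ℝ) :
    avg β g (fun x => f x * gen β g h x) = avg β g (fun x => gen β g f x * h x) := by
  simp only [avg, gen_apply, mul_sum, sum_mul]
  rw [sum_comm]; conv_rhs => rw [sum_comm]
  refine sum_congr rfl fun i _ => ?_
  have := heatBath_symm β g i f h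
  simp only [avg] at this
  simp only [mul_sub, sub_mul, sum_sub_distrib, this]

lemma gen_one (β : ℝ) (g : Edge n → ℝ) : gen β g 1 = 0 := by
  funext x
  simp only [gen_apply, heatBath, LinearMap.coe_mk, AddHom.coe_mk, Pi.one_apply, mul_one,
    Pi.zero_apply]
  refine sum_eq_zero fun i _ => ?_
  rw [div_self (add_pos (gibbs_pos β g x) (gibbs_pos β g _)).ne', sub_self]

/-- The heat semigroup. -/
noncomputable def semi (β : ℝ) (g : Edge n → ℝ) (t : ℝ) : (Conf n → ℝ) →L[ℝ] (Conf n → ℝ) :=
  NormedSpace.exp (t • gen β g)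

lemma semi_zero (β : ℝ) (g : Edge n → ℝ) : semi β g 0 = 1 := by
  simp [semi]

lemma semi_add (β : ℝ) (g : Edge n → ℝ) (s t : ℝ) :
    semi β g (s + t) = semi β g s * semi β g t := by
  simp only [semi]
  let : NormedAlgebra ℚ ((Conf n → ℝ) →L[ℝ] (Conf n → ℝ)) := NormedAlgebra.restrictScalars ℚ ℝ _
  rw [add_smul, NormedSpace.exp_add_of_commute]
  exact ((Commute.refl (gen β g)).smul_left s).smul_right t

lemma hasDerivAt_semi_apply (β : ℝ) (g : Edge n → ℝ) (f : Conf n → ℝ) (t : ℝ) :
    HasDerivAt (fun s => semi β g s f) (gen β g (semi β g t f)) t := by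
  have h := (hasDerivAt_exp_smul_const' (gen β g) t).clm_apply (hasDerivAt_const t f)
  simpa [semi] using h

lemma semi_gen (β : ℝ) (g : Edge n → ℝ) (f : Conf n → ℝ) (t : ℝ) :
    semi β g t (gen β g f) = gen β g (semi β g t f) := by
  have h1 := (hasDerivAt_exp_smul_const (gen β g) t).clm_apply (hasDerivAt_const t f)
  have h2 := hasDerivAt_semi_apply β g f t
  have := h1.unique h2
  simpa [semi] using this

lemma hasDerivAt_avg_mul (β : ℝ) (g : Edge n → ℝ) {a b : ℝ → Conf n → ℝ} {a' b' : Conf n → ℝ}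
    {t : ℝ} (ha : HasDerivAt a a' t) (hb : HasDerivAt b b' t) :
    HasDerivAt (fun s => avg β g (fun x => a s x * b s x))
      (avg β g (fun x => a' x * b t x) + avg β g (fun x => a t x * b' x)) t := by
  have h := HasDerivAt.fun_sum (u := (univ : Finset (Conf n))) fun x _ =>
    (((hasDerivAt_pi.1 ha x).mul (hasDerivAt_pi.1 hb x)).const_mul (gibbs β g x))
  rw [← avg_add]
  exact h

lemma semi_symm (β : ℝ) (g : Edge n → ℝ) (f h : Conf n → ℝ) (t : ℝ) :
    avg β g (fun x => semi β g t f x * h x) = avg β g (fun x => f x * semi β g t h x) := by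
  have hd : ∀ s, HasDerivAt (fun u => avg β g (fun x => semi β g u f x * semi β g (t - u) h x)) 0 s := by
    intro s
    have hb : HasDerivAt (fun u => semi β g (t - u) h) (-gen β g (semi β g (t - s) h)) s := by
      simpa [Function.comp_def] using
        HasDerivAt.scomp s (hasDerivAt_semi_apply β g h (t - s)) ((hasDerivAt_id s).const_sub t)
    refine (hasDerivAt_avg_mul β g (hasDerivAt_semi_apply β g f s) hb).congr_deriv ?_
    rw [← gen_symm]
    simp [avg, ← sum_add_distrib]
  have := is_const_of_deriv_eq_zero (fun s => (hd s).differentiableAt) (fun s => (hd s).deriv) t 0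
  simpa [semi_zero] using this

lemma semi_one (β : ℝ) (g : Edge n → ℝ) (t : ℝ) : semi β g t 1 = 1 := by
  funext x
  have hd : ∀ s, HasDerivAt (fun u => semi β g u 1 x) 0 s := fun s => by
    have := hasDerivAt_pi.1 (hasDerivAt_semi_apply β g 1 s) x
    rwa [← semi_gen, gen_one, map_zero] at this
  have := is_const_of_deriv_eq_zero (fun s => (hd s).differentiableAt) (fun s => (hd s).deriv) t 0
  simpa [semi_zero] using this

lemma avg_semi (β : ℝ) (g : Edge n → ℝ) (f : Conf n → ℝ) (t : ℝ) :
    avg β g (semi β g t f) = avg β g f := by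
  have := semi_symm β g f 1 t
  rw [semi_one] at this
  simpa using this

lemma avg_semi_form_nonneg (β : ℝ) (g : Edge n → ℝ) (f : Conf n → ℝ) (t : ℝ) :
    0 ≤ avg β g (fun x => f x * semi β g t f x) := by
  rw [show t = t / 2 + t / 2 by ring, semi_add]
  simp only [ContinuousLinearMap.mul_def, ContinuousLinearMap.comp_apply]
  rw [← semi_symm]
  exact sum_nonneg fun x _ => mul_nonneg (gibbs_pos β g x).le (mul_self_nonneg _)

/-- Convexity of the autocorrelation. -/
lemma autocorr_ge (β : ℝ) (g : Edge n → ℝ) (f : Conf n → ℝ) {T : ℝ} (hT : 0 ≤ T) :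
    avg β g (fun x => f x ^ 2) + T * avg β g (fun x => f x * gen β g f x) ≤
      avg β g (fun x => f x * semi β g T f x) := by
  set φ := fun s => avg β g (fun x => f x * semi β g s f x)
  set φ' := fun s => avg β g (fun x => f x * semi β g s (gen β g f) x)
  have h1 : ∀ s, HasDerivAt φ (φ' s) s := fun s => by
    refine (hasDerivAt_avg_mul β g (hasDerivAt_const s f) (hasDerivAt_semi_apply β g f s)).congr_deriv ?_
    simp [φ', semi_gen, avg]
  have h2 : ∀ s, HasDerivAt φ' (avg β g (fun x => gen β g f x * semi β g s (gen β g f) x)) s := fun s => by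
    refine (hasDerivAt_avg_mul β g (hasDerivAt_const s f)
      (hasDerivAt_semi_apply β g (gen β g f) s)).congr_deriv ?_
    rw [gen_symm]; simp [avg]
  have hmono : Monotone φ' := monotone_of_hasDerivAt_nonneg h2 fun s => avg_semi_form_nonneg β g _ s
  have key := (convex_Icc (0:ℝ) T).mul_sub_le_image_sub_of_le_deriv (f := φ) (C := φ' 0)
    (fun s _ => (h1 s).continuousAt.continuousWithinAt)
    (fun s _ => (h1 s).differentiableAt.differentiableWithinAt)
    (fun s hs => by
      rw [(h1 s).deriv]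
      exact hmono (interior_subset hs).1)
    0 (Set.left_mem_Icc.2 hT) T (Set.right_mem_Icc.2 hT) hT
  simp [φ, φ', semi_zero, sq] at key ⊢
  linarith

lemma tvDist_contraction (β : ℝ) (g : Edge n → ℝ) {t : ℝ} (h : ∀ x, tvDist β g t x ≤ 1 / 4)
    {f : Conf n → ℝ} (hf : avg β g f = 0) {B : ℝ} (hB : ∀ x, |f x| ≤ B) (x : Conf n) :
    |semi β g t f x| ≤ B / 2 := by
  have hB0 : 0 ≤ B := (abs_nonneg _).trans (hB x)
  have e : semi β g t f x = ∑ y, f y * kernelAt β g t x y := by
    conv_lhs => rw [show f = ∑ y, f y • Pi.single y (1:ℝ) from by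
      funext z; simp [Finset.sum_apply, Pi.single_apply]]
    simp [map_sum, map_smul, kernelAt, semi, Finset.sum_apply]
  have e2 : semi β g t f x = ∑ y, f y * (kernelAt β g t x y - gibbs β g y) := by
    simp only [mul_sub, sum_sub_distrib, ← e]
    have : ∑ y, f y * gibbs β g y = 0 := by
      rw [← hf]; exact sum_congr rfl fun y _ => mul_comm _ _
    linarith
  rw [e2]
  refine (abs_sum_le_sum_abs _ _).trans ?_
  calc ∑ y, |f y * (kernelAt β g t x y - gibbs β g y)|
      ≤ ∑ y, B * |kernelAt β g t x y - gibbs β g y| := sum_le_sum fun y _ => by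
        rw [abs_mul]; exact mul_le_mul_of_nonneg_right (hB y) (abs_nonneg _)
    _ = B * (2 * tvDist β g t x) := by rw [← mul_sum, tvDist]; ring
    _ ≤ B * (2 * (1 / 4)) := mul_le_mul_of_nonneg_left (by linarith [h x]) hB0
    _ = B / 2 := by ring

lemma semi_iterate_bound (β : ℝ) (g : Edge n → ℝ) {t : ℝ} (h : ∀ x, tvDist β g t x ≤ 1 / 4)
    {f : Conf n → ℝ} (hf : avg β g f = 0) {B : ℝ} (hB : ∀ x, |f x| ≤ B) :
    ∀ (k : ℕ) (x : Conf n), |semi β g (k * t) f x| ≤ B / 2 ^ k := by
  intro k
  induction k with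
  | zero => intro x; simpa [semi_zero] using hB x
  | succ k ih =>
    intro x
    rw [Nat.cast_succ, add_mul, one_mul, add_comm, semi_add]
    have := tvDist_contraction β g h (f := semi β g (k * t) f) (by rw [avg_semi, hf]) ih x
    simpa [pow_succ, div_div] using this

/-- The linear statistic in direction `y`. -/
def lin (y x : Conf n) : ℝ := ∑ i, spin y i * spin x i

lemma abs_spin (x : Conf n) (i : Fin n) : |spin x i| = 1 := by
  unfold spin; split_ifs <;> norm_num

lemma abs_lin_le (y x : Conf n) : |lin y x| ≤ n := by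
  refine (abs_sum_le_sum_abs _ _).trans ?_
  simp [abs_mul, abs_spin]

lemma spin_not (x : Conf n) (i : Fin n) : spin (fun j => !x j) i = -spin x i := by
  cases hx : x i <;> simp [spin, hx]

lemma gibbs_not (β : ℝ) (g : Edge n → ℝ) (x : Conf n) :
    gibbs β g (fun j => !x j) = gibbs β g x := by
  have : energy g (fun j => !x j) = energy g x := by
    simp only [energy, pairSpin, spin_not, neg_mul_neg]
  simp [gibbs, this]

lemma avg_lin (β : ℝ) (g : Edge n → ℝ) (y : Conf n) : avg β g (lin y) = 0 := by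
  have hinv : Function.Involutive (fun x : Conf n => fun j => !x j) := fun x => by funext j; simp
  have h : avg β g (lin y) = -avg β g (lin y) := by
    conv_lhs => rw [avg, ← Equiv.sum_comp hinv.toPerm (fun x => gibbs β g x * lin y x)]
    simp [avg, lin, gibbs_not, spin_not, mul_comm]
  linarith

lemma lin_flip (y x : Conf n) (i : Fin n) :
    lin y x - lin y (flipAt i x) = 2 * (spin y i * spin x i) := by
  simp only [lin, ← sum_sub_distrib]
  rw [sum_eq_single i]
  · cases hx : x i <;> cases hy : y i <;> simp [spin, flipAt, hx, hy] <;> norm_num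
  · intro j _ hj; simp [spin, flipAt, hj]
  · simp

/-- The Dirichlet form of a linear statistic is at most `n`. -/
lemma dirichlet_lin_le (β : ℝ) (g : Edge n → ℝ) (y : Conf n) :
    -avg β g (fun x => lin y x * gen β g (lin y) x) ≤ n := by
  set μ := gibbs β g
  set f := lin y
  have h : ∀ i, -∑ x, μ x * (f x * (heatBath β g i f x - f x)) ≤ 1 := by
    intro i
    have e : ∀ x, μ x * (f x * (heatBath β g i f x - f x)) =
        μ x * μ (flipAt i x) * f x * (f (flipAt i x) - f x) / (μ x + μ (flipAt i x)) := by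
      intro x
      have hp := (add_pos (gibbs_pos β g x) (gibbs_pos β g (flipAt i x))).ne'
      simp only [heatBath, LinearMap.coe_mk, AddHom.coe_mk, μ]
      field_simp
      ring
    set S := ∑ x, μ x * μ (flipAt i x) * f x * (f (flipAt i x) - f x) / (μ x + μ (flipAt i x))
    have e2 : S = ∑ x, μ x * μ (flipAt i x) * f (flipAt i x) * (f x - f (flipAt i x)) /
        (μ x + μ (flipAt i x)) := by
      simp only [S]
      rw [← Equiv.sum_comp (flipAt_involutive i).toPerm]
      refine sum_congr rfl fun x _ => ?_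
      simp only [Function.Involutive.coe_toPerm, flipAt_flipAt, add_comm (μ (flipAt i x))]
      ring
    have e3 : -(2 * S) = ∑ x, 4 * (μ x * μ (flipAt i x) / (μ x + μ (flipAt i x))) := by
      rw [two_mul, neg_add]
      nth_rw 2 [e2]
      simp only [S, ← sum_neg_distrib, ← sum_add_distrib]
      refine sum_congr rfl fun x _ => ?_
      have hsq : (f x - f (flipAt i x)) ^ 2 = 4 := by
        rw [lin_flip]
        have hy := abs_spin y i; have hx := abs_spin x i
        rw [mul_pow, mul_pow, ← sq_abs (spin y i), hy, ← sq_abs (spin x i), hx]; norm_num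
      rw [← hsq]; ring
    have e4 : ∑ x, 4 * (μ x * μ (flipAt i x) / (μ x + μ (flipAt i x))) ≤
        ∑ x, (μ x + μ (flipAt i x)) := sum_le_sum fun x _ => by
      have hp := add_pos (gibbs_pos β g x) (gibbs_pos β g (flipAt i x))
      rw [mul_div_assoc', div_le_iff₀ hp]
      nlinarith [sq_nonneg (μ x - μ (flipAt i x))]
    have e5 : ∑ x, (μ x + μ (flipAt i x)) = 2 := by
      have hf : ∑ x, μ (flipAt i x) = ∑ x, μ x := Equiv.sum_comp (flipAt_involutive i).toPerm μ
      rw [sum_add_distrib, hf, sum_gibbs]; norm_num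
    rw [sum_congr rfl fun x _ => e x]
    show -S ≤ 1
    linarith
  calc -avg β g (fun x => f x * gen β g f x)
      = ∑ i, -∑ x, μ x * (f x * (heatBath β g i f x - f x)) := by
        simp only [avg, gen_apply, mul_sum, sum_neg_distrib]
        rw [sum_comm]
    _ ≤ ∑ _i : Fin n, (1:ℝ) := sum_le_sum fun i _ => h i
    _ = n := by simp

lemma exists_large_variance (β : ℝ) (g : Edge n → ℝ) :
    ∃ y : Conf n, 2 * (n:ℝ) ^ 2 * corr β g ≤ avg β g (fun x => lin y x ^ 2) := by
  rcases Nat.eq_zero_or_pos n with rfl | hn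
  · exact ⟨default, by simp [avg, lin]⟩
  set C : Fin n → Fin n → ℝ := fun i j => avg β g (fun x => spin x i * spin x j)
  have e1 : ∀ y, avg β g (fun x => lin y x ^ 2) = ∑ i, ∑ j, spin y i * spin y j * C i j := by
    intro y
    simp only [C, avg, lin, sq, sum_mul, mul_sum]
    rw [sum_comm]
    refine sum_congr rfl fun i _ => ?_
    rw [sum_comm]
    exact sum_congr rfl fun j _ => sum_congr rfl fun x _ => by ring
  have e2 : avg β g (fun y => avg β g (fun x => lin y x ^ 2)) = ∑ i, ∑ j, C i j ^ 2 := by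
    simp only [e1]
    simp only [avg, mul_sum]
    rw [sum_comm]
    refine sum_congr rfl fun i _ => ?_
    rw [sum_comm]
    refine sum_congr rfl fun j _ => ?_
    rw [sq]
    simp only [C, avg]
    rw [sum_mul]
    exact sum_congr rfl fun x _ => by ring
  have hlow : 2 * (n:ℝ) ^ 2 * corr β g ≤ ∑ i, ∑ j, C i j ^ 2 := by
    have hsub : ∀ p : Fin n × Fin n, 0 ≤ C p.1 p.2 ^ 2 := fun p => sq_nonneg _
    have h1 : (n:ℝ) ^ 2 * corr β g = ∑ e : Edge n, C e.1.1 e.1.2 ^ 2 := by
      have : (n:ℝ) ≠ 0 := Nat.cast_ne_zero.2 hn.ne'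
      simp only [corr, C, pairSpin]; field_simp
    have h2 : ∑ e : Edge n, C e.1.1 e.1.2 ^ 2 =
        ∑ p ∈ univ.filter (fun p : Fin n × Fin n => p.1 < p.2), C p.1 p.2 ^ 2 :=
      (sum_subtype _ (fun p => by simp) (fun p : Fin n × Fin n => C p.1 p.2 ^ 2)).symm
    have h3 : ∑ p ∈ univ.filter (fun p : Fin n × Fin n => p.1 < p.2), C p.1 p.2 ^ 2 =
        ∑ p ∈ univ.filter (fun p : Fin n × Fin n => p.2 < p.1), C p.1 p.2 ^ 2 := by
      refine sum_nbij' Prod.swap Prod.swap ?_ ?_ ?_ ?_ ?_ <;> intro p hp <;>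
        simp_all [C, mul_comm]
    rw [mul_assoc, h1, h2, two_mul]
    nth_rw 2 [h3]
    rw [← Fintype.sum_prod_type', ← sum_union]
    · exact sum_le_univ_sum_of_nonneg hsub
    · exact disjoint_filter.2 fun p _ h h' => lt_asymm h h'
  by_contra hne
  push Not at hne
  have := avg_le (β := β) (g := g) (B := 2 * (n:ℝ) ^ 2 * corr β g) fun y => (hne y).le
  obtain ⟨y, hy⟩ : ∃ y : Conf n, y ∈ (univ : Finset (Conf n)) := ⟨default, mem_univ _⟩
  have hlt : avg β g (fun y => avg β g (fun x => lin y x ^ 2)) < 2 * (n:ℝ) ^ 2 * corr β g := by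
    calc avg β g (fun y => avg β g (fun x => lin y x ^ 2))
        < ∑ x, gibbs β g x * (2 * (n:ℝ) ^ 2 * corr β g) :=
          sum_lt_sum_of_nonempty univ_nonempty fun x _ =>
            mul_lt_mul_of_pos_left (hne x) (gibbs_pos β g x)
      _ = _ := by rw [← sum_mul, sum_gibbs, one_mul]
  linarith [e2]

/-- Macroscopic correlations give slow mixing. -/
lemma slowMixing_of_corr (β : ℝ) (g : Edge n → ℝ) (hn : 0 < n) {d : ℝ} (hd : 0 < d) (hd1 : d ≤ 1)
    (h : d ≤ corr β g) : SlowMixing β g (d ^ 2 / 3) := by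
  have hn' : (0:ℝ) < n := Nat.cast_pos.2 hn
  obtain ⟨y, hy⟩ := exists_large_variance β g
  set f := lin y
  have hV : 2 * (n:ℝ) ^ 2 * d ≤ avg β g (fun x => f x ^ 2) :=
    (mul_le_mul_of_nonneg_left h (by positivity)).trans hy
  have hE := dirichlet_lin_le β g y
  refine ⟨fun lam hlam => ?_, fun t ht0 ht => ?_⟩
  · rcases le_or_gt lam 0 with hl | hl
    · exact hl.trans (by positivity)
    have := (hlam f).trans hE
    rw [avg_lin] at this
    rw [le_div_iff₀ (by positivity)]
    have h1 : lam * (2 * (n:ℝ) ^ 2 * d) ≤ n := by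
      refine le_trans (mul_le_mul_of_nonneg_left hV hl.le) ?_
      simpa using this
    have h2 : lam * (2 * (n:ℝ) * d) ≤ 1 := by
      refine le_of_mul_le_mul_right ?_ hn'
      linarith
    calc lam * (d ^ 2 / 3 * n) = lam * (2 * n * d) * (d / 6) := by ring
      _ ≤ 1 * (d / 6) := by gcongr
      _ ≤ 1 := by linarith
  · by_contra hne
    push Not at hne
    obtain ⟨k, hk⟩ : ∃ k : ℕ, k = ⌈1 / d⌉₊ := ⟨_, rfl⟩
    have hk1 : 1 / d ≤ (k:ℝ) := hk ▸ Nat.le_ceil _
    have hk2 : (k:ℝ) ≤ 2 / d := by
      have := Nat.ceil_lt_add_one (div_nonneg zero_le_one hd.le : (0:ℝ) ≤ 1 / d)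
      rw [← hk] at this
      have h1 : (1:ℝ) ≤ 1 / d := by rw [le_div_iff₀ hd]; linarith
      rw [show (2:ℝ) / d = 1 / d + 1 / d by ring]
      linarith
    have hpow : 1 / d ≤ (2:ℝ) ^ k := hk1.trans (by exact_mod_cast (Nat.lt_two_pow_self).le)
    have up : avg β g (fun x => f x * semi β g (k * t) f x) ≤ (n:ℝ) * n * d := by
      refine avg_le fun x => (le_abs_self _).trans ?_
      rw [abs_mul]
      have := semi_iterate_bound β g hne (avg_lin β g y) (fun z => abs_lin_le y z) k x
      calc |f x| * |semi β g (k * t) f x| ≤ n * (n / 2 ^ k) :=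
            mul_le_mul (abs_lin_le y x) this (abs_nonneg _) hn'.le
        _ ≤ n * n * d := by
            rw [mul_div_assoc', div_le_iff₀ (by positivity)]
            have : (1:ℝ) ≤ d * 2 ^ k := by
              rw [div_le_iff₀ hd] at hpow; linarith
            nlinarith [mul_le_mul_of_nonneg_left this (mul_nonneg hn'.le hn'.le)]
    have low := autocorr_ge β g f (T := k * t) (by positivity)
    have hkt : (k:ℝ) * t ≤ 2 * d / 3 * n := by
      calc (k:ℝ) * t ≤ (2 / d) * (d ^ 2 / 3 * n) := mul_le_mul hk2 ht ht0 (by positivity)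
        _ = _ := by field_simp
    have hE' : -(k * t * (n:ℝ)) ≤ k * t * avg β g (fun x => f x * gen β g f x) := by
      nlinarith [mul_le_mul_of_nonneg_left hE (by positivity : 0 ≤ (k:ℝ) * t)]
    nlinarith [mul_le_mul_of_nonneg_right hkt hn'.le, mul_pos (mul_pos hn' hn') hd]

end Vale.Agent.P150
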