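import Mathlib

/-!
The Sherrington-Kirkpatrick model and its heat-bath dynamics.
-/

open MeasureTheory ProbabilityTheory

namespace Vale.Agent.P150

/-- Spin configurations. -/
abbrev Conf (n : ℕ) := Fin n → Bool

/-- Pairs `i < j`. -/
abbrev Edge (n : ℕ) := {p : Fin n × Fin n // p.1 < p.2}

/-- The spin at a site, `±1`. -/
def spin {n : ℕ} (x : Conf n) (i : Fin n) : ℝ := if x i then 1 else -1

/-- Product of the two spins of a pair. -/
def pairSpin {n : ℕ} (x : Conf n) (e : Edge n) : ℝ := spin x e.1.1 * spin x e.1.2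

/-- The law of the disorder: independent standard Gaussians on the pairs. -/
noncomputable def disorder (n : ℕ) : Measure (Edge n → ℝ) := Measure.pi fun _ => gaussianReal 0 1

/-- `n^{-1/2} Σ_{i<j} g_ij x_i x_j`. -/
noncomputable def energy {n : ℕ} (g : Edge n → ℝ) (x : Conf n) : ℝ :=
  (Real.sqrt n)⁻¹ * ∑ e, g e * pairSpin x e

/-- The Gibbs weight of a configuration. -/
noncomputable def gibbs {n : ℕ} (β : ℝ) (g : Edge n → ℝ) (x : Conf n) : ℝ :=
  Real.exp (β * energy g x) / ∑ y, Real.exp (β * energy g y)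

/-- Expectation under the Gibbs measure. -/
noncomputable def avg {n : ℕ} (β : ℝ) (g : Edge n → ℝ) (f : Conf n → ℝ) : ℝ :=
  ∑ x, gibbs β g x * f x

/-- Flip the spin at site `i`. -/
def flipAt {n : ℕ} (i : Fin n) (x : Conf n) : Conf n := Function.update x i (!x i)

/-- Conditional expectation given all spins but the one at `i`. -/
noncomputable def heatBath {n : ℕ} (β : ℝ) (g : Edge n → ℝ) (i : Fin n) :
    (Conf n → ℝ) →ₗ[ℝ] (Conf n → ℝ) where
  toFun f x := (gibbs β g x * f x + gibbs β g (flipAt i x) * f (flipAt i x)) /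
    (gibbs β g x + gibbs β g (flipAt i x))
  map_add' f h := by funext x; simp only [Pi.add_apply]; ring
  map_smul' c f := by funext x; simp only [Pi.smul_apply, smul_eq_mul, RingHom.id_apply]; ring

/-- The generator `Σ_i (Q_i - I)`. -/
noncomputable def gen {n : ℕ} (β : ℝ) (g : Edge n → ℝ) : (Conf n → ℝ) →L[ℝ] (Conf n → ℝ) :=
  LinearMap.toContinuousLinearMap (∑ i, (heatBath β g i - LinearMap.id))

/-- The transition probability `P_t(x,y)` of the continuous-time dynamics. -/
noncomputable def kernelAt {n : ℕ} (β : ℝ) (g : Edge n → ℝ) (t : ℝ) (x y : Conf n) : ℝ :=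
  NormedSpace.exp (t • gen β g) (Pi.single y 1) x

/-- Total variation distance between `P_t(x,·)` and the Gibbs measure. -/
noncomputable def tvDist {n : ℕ} (β : ℝ) (g : Edge n → ℝ) (t : ℝ) (x : Conf n) : ℝ :=
  (∑ y, |kernelAt β g t x y - gibbs β g y|) / 2

/-- Mixing and relaxation both take time at least `c n`. -/
def SlowMixing {n : ℕ} (β : ℝ) (g : Edge n → ℝ) (c : ℝ) : Prop :=
  (∀ lam : ℝ, (∀ f : Conf n → ℝ,
      lam * (avg β g (fun x => f x ^ 2) - avg β g f ^ 2) ≤ -avg β g (fun x => f x * gen β g f x)) →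
    lam ≤ 1 / (c * n)) ∧
  ∀ t : ℝ, 0 ≤ t → t ≤ c * n → ∃ x, 1 / 4 < tvDist β g t x

/-- Squared two-point correlations, summed over pairs and divided by `n²`. -/
noncomputable def corr {n : ℕ} (β : ℝ) (g : Edge n → ℝ) : ℝ :=
  (∑ e, avg β g (fun x => pairSpin x e) ^ 2) / (n : ℝ) ^ 2

end Vale.Agent.P150
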