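import Vale.Agent.P150.Free

/-!
Guerra's replica symmetric bound and the limit of the free energy.
-/

open MeasureTheory ProbabilityTheory Filter Real
open scoped Topology NNReal Classical

namespace Vale.Agent.P150

variable {n : ℕ}

/-- The sign of a bit. -/
def sgn (x : Bool) : ℝ := if x then 1 else -1

/-- `E log (2 cosh (a z))`. -/
noncomputable def oneSite (a : ℝ) : ℝ :=
  ∫ g : Fin 1 → ℝ, lse (wsum (fun _ x => a * sgn x) g) ∂gauss (Fin 1)

lemma integrable_pow_four : Integrable (fun t : ℝ => t ^ 4) (gaussianReal 0 1) := by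
  have h := (memLp_id_gaussianReal (μ := 0) (v := 1) 4).integrable_norm_pow (by norm_num)
  simp only [norm_eq_abs, id_eq] at h
  refine h.congr (ae_of_all _ fun t => ?_)
  push_cast
  exact Even.pow_abs (by decide) t

lemma integral_sq_gaussian : ∫ t : ℝ, t ^ 2 ∂gaussianReal 0 1 = 1 := by
  have hv := variance_id_gaussianReal (μ := 0) (v := 1)
  rw [variance_eq_integral measurable_id.aemeasurable] at hv
  simpa using hv

lemma integral_pow_four : ∫ t : ℝ, t ^ 4 ∂gaussianReal 0 1 = 3 := by
  set p : ℝ → ℝ := fun t => gaussianPDFReal 0 1 t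
  have hp : ∀ t, p t = (√(2 * π))⁻¹ * exp (-t ^ 2 / 2) := fun t => by
    simp [p, gaussianPDFReal]
  have hd : ∀ t, HasDerivAt p (-t * p t) t := by
    intro t
    rw [funext hp]
    exact (((hasDerivAt_pow 2 t).neg.div_const 2).exp.const_mul _).congr_deriv
      (by simp only [Pi.neg_apply]; push_cast; ring)
  have hi : ∀ k : ℕ, Integrable fun t : ℝ => t ^ k * p t := fun k => by
    have h := (integrable_rpow_mul_exp_neg_mul_sq (b := 1 / 2) (by norm_num) (s := (k : ℝ))
      (by linarith [Nat.cast_nonneg (α := ℝ) k])).const_mul (√(2 * π))⁻¹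
    refine h.congr (ae_of_all _ fun t => ?_)
    simp only [hp, rpow_natCast]
    rw [show -(1 / 2) * t ^ 2 = -t ^ 2 / 2 by ring]
    ring
  have h := integral_mul_deriv_eq_deriv_mul_of_integrable
    (u := fun t : ℝ => t ^ 3) (u' := fun t : ℝ => 3 * t ^ 2) (v := p) (v' := fun t => -t * p t)
    (fun t _ => (hasDerivAt_pow 3 t).congr_deriv (by norm_num)) (fun t _ => hd t)
    ((hi 4).neg.congr (ae_of_all _ fun t => by simp only [Pi.neg_apply, Pi.mul_apply]; ring))
    (((hi 2).const_mul 3).congr (ae_of_all _ fun t => by simp only [Pi.mul_apply]; ring))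
    ((hi 3).congr (ae_of_all _ fun t => rfl))
  rw [integral_gaussianReal_eq_integral_smul one_ne_zero]
  have h2 := integral_sq_gaussian
  rw [integral_gaussianReal_eq_integral_smul one_ne_zero] at h2
  simp only [smul_eq_mul] at h2 ⊢
  calc ∫ t, gaussianPDFReal 0 1 t * t ^ 4 = ∫ t, -(t ^ 3 * (-t * p t)) := by
        congr 1; funext t; simp only [p]; ring
    _ = ∫ t, 3 * t ^ 2 * p t := by rw [integral_neg, h, neg_neg]
    _ = 3 * ∫ t, gaussianPDFReal 0 1 t * t ^ 2 := by
        rw [← integral_const_mul]; congr 1; funext t; simp only [p]; ring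
    _ = 3 := by rw [h2, mul_one]

lemma hasDerivAt_tanh' (y : ℝ) : HasDerivAt tanh (1 - tanh y ^ 2) y := by
  have h := (hasDerivAt_sinh y).div (hasDerivAt_cosh y) (cosh_pos y).ne'
  rw [show tanh = fun t => sinh t / cosh t from funext tanh_eq_sinh_div_cosh]
  refine h.congr_deriv ?_
  have := (cosh_pos y).ne'
  field_simp

lemma tanh_le_self {y : ℝ} (hy : 0 ≤ y) : tanh y ≤ y := by
  have h := le_of_deriv_nonneg' hy (fun θ => (hasDerivAt_id θ).sub (hasDerivAt_tanh' θ))
    fun θ _ => by linarith [sq_nonneg (tanh θ)]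
  simp at h
  linarith

lemma tanh_nonneg' {y : ℝ} (hy : 0 ≤ y) : 0 ≤ tanh y := by
  rw [tanh_eq_sinh_div_cosh]
  exact div_nonneg (sinh_nonneg_iff.2 hy) (cosh_pos y).le

lemma tanh_sq_ge (y : ℝ) : y ^ 2 - 2 / 3 * y ^ 4 ≤ tanh y ^ 2 := by
  wlog hy : 0 ≤ y generalizing y
  · have := this (-y) (by linarith)
    simpa [tanh_neg, Even.neg_pow (show Even 4 by decide)] using this
  have h1 : y - y ^ 3 / 3 ≤ tanh y := by
    have h := le_of_deriv_nonneg' hy
      (fun θ => (hasDerivAt_tanh' θ).sub ((hasDerivAt_id θ).sub ((hasDerivAt_pow 3 θ).div_const 3)))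
      fun θ hθ => by
        have := pow_le_pow_left₀ (tanh_nonneg' hθ.1.le) (tanh_le_self hθ.1.le) 2
        push_cast
        linarith
    simp at h
    linarith
  rcases le_or_gt (y ^ 2) 3 with h | h
  · have h0 : 0 ≤ y - y ^ 3 / 3 := by nlinarith
    have := pow_le_pow_left₀ h0 h1 2
    nlinarith [sq_nonneg (y ^ 3)]
  · nlinarith [sq_nonneg (tanh y)]

lemma gAvg_sgn (y : ℝ) : gAvg (fun x => y * sgn x) sgn = tanh y := by
  simp only [gAvg, Fintype.sum_bool, sgn, if_true, Bool.false_eq_true, if_false, mul_one, mul_neg]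
  rw [tanh_eq_sinh_div_cosh, sinh_eq, cosh_eq]
  field_simp
  ring

lemma oneSite_le {a : ℝ} (ha : 0 ≤ a) :
    oneSite a ≤ log 2 + a ^ 2 / 2 - a ^ 4 / 4 + a ^ 6 / 3 := by
  have hs : ∀ x, |sgn x| = 1 := fun x => by unfold sgn; split_ifs <;> norm_num
  have hd : ∀ θ, HasDerivAt oneSite
      (θ * (1 - ∫ g : Fin 1 → ℝ, tanh (θ * g 0) ^ 2 ∂gauss (Fin 1))) θ := by
    intro θ
    refine (hasDerivAt_free (a := fun (t : ℝ) (_ : Fin 1) x => t * sgn x)
      (a' := fun _ _ x => sgn x) (fun t _ x => hasDerivAt_mul_const (sgn x))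
      (fun _ _ x => (hs x).le) θ (A := |θ|) fun _ x => by rw [abs_mul, hs, mul_one]).congr_deriv ?_
    rw [Fin.sum_univ_one]
    have hv : ∀ g : Fin 1 → ℝ, wsum (fun _ x => θ * sgn x) g = fun x => θ * g 0 * sgn x :=
      fun g => funext fun x => by simp [wsum]; ring
    have h1 : ∀ x, sgn x * (θ * sgn x) = θ := fun x => by
      unfold sgn; split_ifs <;> ring
    simp only [h1, gAvg_const, gAvg_const_mul, hv, gAvg_sgn]
    have hint : Integrable (fun g : Fin 1 → ℝ => θ * tanh (θ * g 0) ^ 2) (gauss (Fin 1)) := by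
      refine integrable_gauss_bound ?_ (B := |θ|) fun g => ?_
      · simp only [tanh_eq_sinh_div_cosh]
        exact continuous_const.mul (((by fun_prop : Continuous fun g : Fin 1 → ℝ => sinh (θ * g 0)).div₀
          (by fun_prop : Continuous fun g : Fin 1 → ℝ => cosh (θ * g 0)) fun g => (cosh_pos _).ne').pow 2)
      · rw [abs_mul, abs_pow]
        exact mul_le_of_le_one_right (abs_nonneg _)
          (pow_le_one₀ (abs_nonneg (tanh (θ * g 0))) (abs_tanh_lt_one _).le)
    calc _ = ∫ g : Fin 1 → ℝ, (θ - θ * tanh (θ * g 0) ^ 2) ∂gauss (Fin 1) :=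
          integral_congr_ae (ae_of_all _ fun g => by ring)
      _ = _ := by
          rw [integral_sub (integrable_const _) hint, integral_const_mul]
          simp; ring
  have hm : ∀ θ, θ ^ 2 - 2 * θ ^ 4 ≤ ∫ g : Fin 1 → ℝ, tanh (θ * g 0) ^ 2 ∂gauss (Fin 1) := by
    intro θ
    have he := measurePreserving_eval (fun _ : Fin 1 => gaussianReal 0 1) 0
    have i2 : Integrable (fun z : ℝ => z ^ 2) (gaussianReal 0 1) :=
      (memLp_id_gaussianReal 2).integrable_sq
    have i4 := integrable_pow_four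
    rw [show gauss (Fin 1) = Measure.pi fun _ : Fin 1 => gaussianReal 0 1 from rfl,
      integral_comp_mp (f := fun g : Fin 1 → ℝ => g 0) he (F := fun z => tanh (θ * z) ^ 2) ?_]
    · calc θ ^ 2 - 2 * θ ^ 4 = ∫ z, (θ ^ 2 * z ^ 2 - 2 / 3 * θ ^ 4 * z ^ 4) ∂gaussianReal 0 1 := by
            rw [integral_sub (i2.const_mul _) (i4.const_mul _), integral_const_mul,
              integral_const_mul, integral_sq_gaussian, integral_pow_four]
            ring
        _ ≤ _ := by
            refine integral_mono ((i2.const_mul _).sub (i4.const_mul _))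
              (Integrable.of_bound ?_ 1 (ae_of_all _ fun z => ?_)) fun z => ?_
            · simp only [tanh_eq_sinh_div_cosh]
              exact (((by fun_prop : Continuous fun z : ℝ => sinh (θ * z)).div₀
                (by fun_prop) fun z => (cosh_pos _).ne').pow 2).aestronglyMeasurable
            · rw [norm_eq_abs, abs_pow]
              exact pow_le_one₀ (abs_nonneg (tanh (θ * z))) (abs_tanh_lt_one _).le
            · have := tanh_sq_ge (θ * z)
              linear_combination this
    · simp only [tanh_eq_sinh_div_cosh]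
      exact (((by fun_prop : Continuous fun z : ℝ => sinh (θ * z)).div₀
        (by fun_prop) fun z => (cosh_pos _).ne').pow 2).aestronglyMeasurable
  have h := le_of_deriv_nonneg' ha
    (fun θ => (((hasDerivAt_pow 2 θ).div_const 2).sub ((hasDerivAt_pow 4 θ).div_const 4)).add
      ((hasDerivAt_pow 6 θ).div_const 3) |>.sub (hd θ))
    fun θ hθ => by
      have := mul_le_mul_of_nonneg_left (hm θ) hθ.1.le
      push_cast
      linear_combination this
  have h0 : oneSite 0 = log 2 := by
    simp [oneSite, lse, wsum]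
  simp [h0] at h
  linarith

/-- The coefficients interpolating between the model and independent sites. -/
noncomputable def fieldCoef (n : ℕ) (b r c d : ℝ) : Edge n ⊕ Fin n → Conf n → ℝ
  | .inl e, x => c * pairCoef n b e x
  | .inr i, x => d * (r * spin x i)

/-- Guerra's replica symmetric bound. -/
theorem guerra {s q : ℝ} (hn : 0 < n) (hs : 0 ≤ s) (hq : 0 ≤ q) :
    fe n s ≤ oneSite (s * √q) + s ^ 2 * (1 - q) ^ 2 / 4 := by
  have hn' : (0:ℝ) < n := Nat.cast_pos.2 hn
  set b := s / √(n:ℝ) with hb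
  set r := s * √q with hr
  set a : ℝ → Edge n ⊕ Fin n → Conf n → ℝ := fun θ => fieldCoef n b r (sin θ) (cos θ) with ha
  set a' : ℝ → Edge n ⊕ Fin n → Conf n → ℝ := fun θ => fieldCoef n b r (cos θ) (-sin θ) with ha'
  have hsp : ∀ x : Conf n, ∀ i, |spin x i| = 1 := fun x i => by
    unfold spin; split_ifs <;> norm_num
  have hbd : ∀ c d : ℝ, |c| ≤ 1 → |d| ≤ 1 → ∀ i x, |fieldCoef n b r c d i x| ≤ |b| + |r| := by
    intro c d hc hd i x
    rcases i with e | e <;> simp only [fieldCoef, abs_mul, hsp, mul_one]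
    · nlinarith [mul_le_mul hc (abs_pairCoef b e x) (abs_nonneg _) zero_le_one, abs_nonneg r]
    · nlinarith [mul_le_mul_of_nonneg_right hd (abs_nonneg r), abs_nonneg b]
  have hD := fun θ => hasDerivAt_free2 (a := a) (a' := a') (B := |b| + |r|)
    (fun θ i x => by
      rcases i with e | e <;> simp only [ha, ha', fieldCoef]
      exacts [(hasDerivAt_sin θ).mul_const _, (hasDerivAt_cos θ).mul_const _])
    (fun θ => hbd _ _ (abs_cos_le_one θ) (by rw [abs_neg]; exact abs_sin_le_one θ)) θ
    (hbd _ _ (abs_sin_le_one θ) (abs_cos_le_one θ))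
  set K := s ^ 2 * n * (1 - q) ^ 2 / 4 with hK
  have hD' := fun θ => ((hasDerivAt_sin θ).pow 2).const_mul K |>.sub (hD θ)
  have hkey := le_of_deriv_nonneg' (div_nonneg pi_pos.le (zero_le_two (α := ℝ))) hD' fun θ hθ => ?_
  · have e1 : ∫ g, lse (wsum (a (π / 2)) g) ∂gauss _ = free n b := by
      refine free_congr gauss_inl fun g => congrArg lse (funext fun x => ?_)
      simp [wsum, ha, fieldCoef, pairCoef]
    have e0 : ∫ g, lse (wsum (a 0) g) ∂gauss _ = n * oneSite r := by
      have e : ∀ g, lse (wsum (a 0) g) = ∑ i, lse (wsum (fun _ x => r * sgn x)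
          (fun _ : Fin 1 => g (.inr i))) := by
        intro g
        simp only [lse]
        rw [← log_prod (fun i _ => (sum_exp_pos _).ne'), Fintype.prod_sum]
        refine congrArg log (Finset.sum_congr rfl fun x _ => ?_)
        rw [← exp_sum]
        congr 1
        simp [wsum, ha, fieldCoef, pairCoef, spin, sgn]
      have hp : ∀ i : Fin n, MeasurePreserving (fun g : Edge n ⊕ Fin n → ℝ => fun _ : Fin 1 => g (.inr i))
          (gauss (Edge n ⊕ Fin n)) (gauss (Fin 1)) := fun i =>
        ((measurePreserving_funUnique (gaussianReal 0 1) (Fin 1)).symm).comp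
          (measurePreserving_eval (fun _ : Edge n ⊕ Fin n => gaussianReal 0 1) (.inr i))
      have hc : ∀ i x, |r * sgn x| ≤ (fun (_ : Fin 1) => |r|) i := fun i x => by
        unfold sgn; split_ifs <;> simp
      simp only [e]
      rw [integral_finsetSum]
      swap
      · exact fun i _ => (hp i).integrable_comp_of_integrable (integrable_lse hc)
      rw [Finset.sum_congr rfl fun i _ => (integral_comp_mp (hp i)
          (F := fun h => lse (wsum (fun _ x => r * sgn x) h))
          (continuous_lse_wsum _).aestronglyMeasurable), Finset.sum_const, Finset.card_univ,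
        Fintype.card_fin, nsmul_eq_mul]
      rfl
    simp only [Pi.sub_apply, Pi.pow_apply, sin_zero, sin_pi_div_two, e0, e1, one_pow, mul_one, ne_eq,
      OfNat.ofNat_ne_zero, not_false_eq_true, zero_pow, mul_zero] at hkey
    rw [fe, div_le_iff₀ hn', ← hb]
    rw [hK] at hkey
    linarith
  · have hsn : 0 ≤ sin θ := sin_nonneg_of_nonneg_of_le_pi hθ.1.le (by linarith [hθ.2, pi_pos])
    have hc : 0 ≤ cos θ := cos_nonneg_of_mem_Icc ⟨by linarith [hθ.1, pi_pos], hθ.2.le⟩
    rw [sub_nonneg]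
    refine (integral_mono (integrable_gAvg2 (B := ?_) ?_) (integrable_const _)
      fun g => gAvg2_le (B := K * (2 * sin θ * cos θ)) fun x y => ?_).trans_eq ?_
    rotate_left 2
    · rw [Fintype.sum_sum_type]
      simp only [ha, ha', fieldCoef, pairCoef]
      have p1 : ∑ e, (cos θ * (b * pairSpin x e) * (sin θ * (b * pairSpin x e))
            - cos θ * (b * pairSpin x e) * (sin θ * (b * pairSpin y e)))
          = sin θ * cos θ * b ^ 2 * (((n:ℝ) ^ 2 - (∑ i, spin x i * spin y i) ^ 2) / 2) := by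
        rw [← sum_pair_sub, Finset.mul_sum]
        refine Finset.sum_congr rfl fun e _ => ?_
        linear_combination (sin θ * cos θ * b ^ 2) * pairSpin_sq x e
      have p2 : ∑ i, (-sin θ * (r * spin x i) * (cos θ * (r * spin x i))
            - -sin θ * (r * spin x i) * (cos θ * (r * spin y i)))
          = -(sin θ * cos θ * r ^ 2 * ((n:ℝ) - ∑ i, spin x i * spin y i)) := by
        have h1 : ∀ i, spin x i * spin x i = 1 := fun i => by unfold spin; split_ifs <;> norm_num
        calc _ = ∑ i, -(sin θ * cos θ * r ^ 2 * (1 - spin x i * spin y i)) :=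
              Finset.sum_congr rfl fun i _ => by
                linear_combination -(sin θ * cos θ * r ^ 2) * h1 i
          _ = _ := by simp [Finset.mul_sum, mul_sub]; ring
      rw [p1, p2, hb, hr, div_pow, sq_sqrt hn'.le, mul_pow, sq_sqrt hq, hK]
      set O := ∑ i, spin x i * spin y i
      have : 0 ≤ sin θ * cos θ * s ^ 2 / (2 * n) * (O - q * n) ^ 2 := by positivity
      calc _ ≤ sin θ * cos θ * (s ^ 2 / n) * (((n:ℝ) ^ 2 - O ^ 2) / 2)
            + -(sin θ * cos θ * (s ^ 2 * q) * ((n:ℝ) - O))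
            + sin θ * cos θ * s ^ 2 / (2 * n) * (O - q * n) ^ 2 := by linarith
        _ = _ := by field_simp; ring
    · simp
    · exact ∑ _i : Edge n ⊕ Fin n, ((|b| + |r|) * (|b| + |r|) + (|b| + |r|) * (|b| + |r|))
    · intro x y
      refine (Finset.abs_sum_le_sum_abs _ _).trans (Finset.sum_le_sum fun i _ => ?_)
      refine (abs_sub _ _).trans (add_le_add ?_ ?_) <;> rw [abs_mul] <;>
        exact mul_le_mul (hbd _ _ (abs_cos_le_one θ) (by rw [abs_neg]; exact abs_sin_le_one θ) _ _)
          (hbd _ _ (abs_sin_le_one θ) (abs_cos_le_one θ) _ _) (abs_nonneg _) (by positivity)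

lemma fe_le_annealed {s : ℝ} (hn : 0 < n) (hs : 0 ≤ s) : fe n s ≤ log 2 + s ^ 2 / 4 := by
  have := guerra (n := n) hn hs le_rfl
  have h := oneSite_le (a := s * √0) (by simp)
  simp at this h
  linarith

/-- Below the annealed value throughout `[β, β + 1]`. -/
lemma fe_gap {β : ℝ} (hβ : 1 < β) : ∃ c : ℝ, 0 < c ∧ ∀ n : ℕ, 0 < n → ∀ s ∈ Set.Icc β (β + 1),
    fe n s ≤ log 2 + s ^ 2 / 4 - c := by
  set q := min 1 (3 * (β ^ 2 - 1) / (8 * (β + 1) ^ 4))
  have hb : 0 < β ^ 2 - 1 := by nlinarith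
  have hq : 0 < q := lt_min one_pos (by positivity)
  have hq' : q * (8 * (β + 1) ^ 4) ≤ 3 * (β ^ 2 - 1) :=
    (le_div_iff₀ (by positivity)).1 (min_le_right _ _)
  refine ⟨q ^ 2 * (β ^ 2 - 1) / 8, by positivity, fun n hn s hs => ?_⟩
  have hs0 : 0 ≤ s := by linarith [hs.1]
  have h1 := guerra (n := n) hn hs0 hq.le
  have h2 := oneSite_le (a := s * √q) (by positivity)
  have e2 : (s * √q) ^ 2 = s ^ 2 * q := by rw [mul_pow, sq_sqrt hq.le]
  have e4 : (s * √q) ^ 4 = s ^ 4 * q ^ 2 := by linear_combination ((s * √q) ^ 2 + s ^ 2 * q) * e2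
  have e6 : (s * √q) ^ 6 = s ^ 6 * q ^ 3 := by
    linear_combination ((s * √q) ^ 4 + (s * √q) ^ 2 * (s ^ 2 * q) + (s ^ 2 * q) ^ 2) * e2
  rw [e2, e4, e6] at h2
  have hs2 : β ^ 2 ≤ s ^ 2 := by nlinarith [hs.1]
  have hs4 : s ^ 4 ≤ (β + 1) ^ 4 := pow_le_pow_left₀ hs0 hs.2 4
  have k1 : q * s ^ 4 ≤ 3 * (β ^ 2 - 1) / 8 := by nlinarith
  have k2 : (β ^ 2 - 1) / 8 ≤ s ^ 2 * ((s ^ 2 - 1) / 4 - q * s ^ 4 / 3) := by
    have : (β ^ 2 - 1) / 8 ≤ (s ^ 2 - 1) / 4 - q * s ^ 4 / 3 := by linarith
    nlinarith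
  have k3 := mul_le_mul_of_nonneg_left k2 (sq_nonneg q)
  linarith

/-- The free energy per spin has a limit. -/
lemma exists_limit {s : ℝ} (hs : 0 ≤ s) : ∃ F, Tendsto (fun n => fe n s) atTop (𝓝 F) := by
  set u : ℕ → ℝ := fun n => -free n (s / √n) with hu
  have h0 : free 0 (s / √(0:ℕ)) = 0 := by simp [free, lse, wsum]
  have hsub : Subadditive u := by
    intro n m
    rcases Nat.eq_zero_or_pos n with rfl | hn
    · simp only [hu, zero_add, h0, neg_zero]; exact le_rfl
    rcases Nat.eq_zero_or_pos m with rfl | hm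
    · simp only [hu, add_zero, h0, neg_zero]; exact le_rfl
    simp only [hu]
    linarith [free_superadd s n m hn hm]
  have hbdd : BddBelow (Set.range fun n => u n / n) := by
    refine ⟨-(log 2 + s ^ 2 / 4), ?_⟩
    rintro _ ⟨n, rfl⟩
    rcases Nat.eq_zero_or_pos n with rfl | hn
    · have := log_nonneg (show (1:ℝ) ≤ 2 by norm_num)
      simp only [Nat.cast_zero, div_zero]
      nlinarith [sq_nonneg s]
    · have := fe_le_annealed (n := n) hn hs
      simp only [fe] at this
      simp only [hu, neg_div]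
      linarith
  refine ⟨-hsub.lim, (hsub.tendsto_lim hbdd).neg.congr fun n => ?_⟩
  simp [hu, fe, neg_div]

end Vale.Agent.P150
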