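import Vale.Agent.P150.Overlap

/-!
Gaussian free energies: integration by parts, interpolation and concentration.
-/

open MeasureTheory ProbabilityTheory Filter Real
open scoped Topology NNReal Classical

namespace Vale.Agent.P150

variable {ι κ X : Type*}

/-- Independent standard Gaussians. -/
noncomputable def gauss (ι : Type*) [Fintype ι] : Measure (ι → ℝ) :=
  Measure.pi fun _ => gaussianReal 0 1

/-- The exponent `Σ_i g_i a_i(x)`. -/
noncomputable def wsum [Fintype ι] (a : ι → X → ℝ) (g : ι → ℝ) (x : X) : ℝ := ∑ i, g i * a i x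

/-- `log Σ_x e^{v x}`. -/
noncomputable def lse [Fintype X] (v : X → ℝ) : ℝ := log (∑ x, exp (v x))

/-- The average of `f` for the weights `e^{v x}`. -/
noncomputable def gAvg [Fintype X] (v f : X → ℝ) : ℝ :=
  (∑ x, exp (v x) * f x) / ∑ x, exp (v x)

variable [Fintype ι] [Fintype κ] [Fintype X]

instance gauss_isProbability : IsProbabilityMeasure (gauss ι) := by
  unfold gauss; infer_instance

lemma disorder_eq (n : ℕ) : disorder n = gauss (Edge n) := rfl

section Avg

variable [Nonempty X]

lemma sum_exp_pos (v : X → ℝ) : 0 < ∑ x, exp (v x) :=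
  Finset.sum_pos (fun _ _ => exp_pos _) Finset.univ_nonempty

lemma exp_lse (v : X → ℝ) : exp (lse v) = ∑ x, exp (v x) := exp_log (sum_exp_pos v)

lemma abs_gAvg_le {v f : X → ℝ} {B : ℝ} (h : ∀ x, |f x| ≤ B) : |gAvg v f| ≤ B := by
  rw [gAvg, abs_div, abs_of_pos (sum_exp_pos v), div_le_iff₀ (sum_exp_pos v), Finset.mul_sum]
  refine (Finset.abs_sum_le_sum_abs _ _).trans (Finset.sum_le_sum fun x _ => ?_)
  rw [abs_mul, abs_of_pos (exp_pos _), mul_comm B]
  exact mul_le_mul_of_nonneg_left (h x) (exp_pos _).le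

lemma gAvg_const (v : X → ℝ) (c : ℝ) : gAvg v (fun _ => c) = c := by
  rw [gAvg, ← Finset.sum_mul, mul_div_cancel_left₀ _ (sum_exp_pos v).ne']

/-- The tangent bound of the convex function `lse`. -/
lemma lse_tangent (v w : X → ℝ) : gAvg v (fun x => w x - v x) ≤ lse w - lse v := by
  set m := gAvg v (fun x => w x - v x)
  have hm : ∑ x, exp (v x) * (w x - v x) = m * ∑ x, exp (v x) :=
    (div_mul_cancel₀ _ (sum_exp_pos v).ne').symm
  have h : exp m * ∑ x, exp (v x) ≤ ∑ x, exp (w x) := by
    have h1 : ∀ x, exp m * (exp (v x) * (1 + (w x - v x - m))) ≤ exp (w x) := fun x => by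
      calc exp m * (exp (v x) * (1 + (w x - v x - m)))
          ≤ exp m * (exp (v x) * exp (w x - v x - m)) := by
            gcongr; linarith [add_one_le_exp (w x - v x - m)]
        _ = exp (w x) := by rw [← exp_add, ← exp_add]; ring_nf
    refine le_trans (le_of_eq ?_) (Finset.sum_le_sum fun x _ => h1 x)
    rw [← Finset.mul_sum]
    congr 1
    simp only [mul_add, mul_one, mul_sub, Finset.sum_add_distrib, Finset.sum_sub_distrib] at hm ⊢
    rw [← Finset.sum_mul]
    linarith
  rw [← exp_lse, ← exp_lse, ← exp_add, exp_le_exp] at h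
  linarith

lemma abs_lse_sub_le {v w : X → ℝ} {M : ℝ} (h : ∀ x, |w x - v x| ≤ M) : |lse w - lse v| ≤ M := by
  have h1 := lse_tangent v w
  have h2 := lse_tangent w v
  have e1 := abs_le.1 (abs_gAvg_le (v := v) h)
  have e2 := abs_le.1 (abs_gAvg_le (v := w) (f := fun x => v x - w x) (B := M)
    fun x => by rw [abs_sub_comm]; exact h x)
  rw [abs_le]
  constructor <;> linarith

omit [Fintype X] [Nonempty X] in
@[fun_prop]
lemma continuous_wsum (a : ι → X → ℝ) (x : X) :
    Continuous fun g : ι → ℝ => wsum a g x := by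
  unfold wsum; fun_prop

@[fun_prop]
lemma continuous_gAvg_wsum (a : ι → X → ℝ) (f : X → ℝ) :
    Continuous fun g : ι → ℝ => gAvg (wsum a g) f := by
  unfold gAvg
  exact Continuous.div₀ (by fun_prop) (by fun_prop) fun g => (sum_exp_pos _).ne'

@[fun_prop]
lemma continuous_lse_wsum (a : ι → X → ℝ) : Continuous fun g : ι → ℝ => lse (wsum a g) := by
  unfold lse
  exact Continuous.log (by fun_prop) fun g => (sum_exp_pos _).ne'

omit [Nonempty X] [Fintype X] in
lemma abs_wsum_le {a : ι → X → ℝ} {B : ℝ} (h : ∀ i x, |a i x| ≤ B) (g : ι → ℝ) (x : X) :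
    |wsum a g x| ≤ B * ∑ i, |g i| := by
  rw [Finset.mul_sum]
  refine (Finset.abs_sum_le_sum_abs _ _).trans (Finset.sum_le_sum fun i _ => ?_)
  rw [abs_mul, mul_comm B]
  exact mul_le_mul_of_nonneg_left (h i x) (abs_nonneg _)

lemma integrable_eval (i : ι) : Integrable (fun g : ι → ℝ => g i) (gauss ι) :=
  (measurePreserving_eval (fun _ : ι => gaussianReal 0 1) i).integrable_comp_of_integrable
    ((memLp_id_gaussianReal 1).integrable le_rfl)

omit [Nonempty X] [Fintype X] in
lemma integrable_of_linear_bound {F : (ι → ℝ) → ℝ} (hc : Continuous F) {A B : ℝ}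
    (h : ∀ g, |F g| ≤ A + B * ∑ i, |g i|) : Integrable F (gauss ι) := by
  have hi : Integrable (fun g : ι → ℝ => A + B * ∑ i, |g i|) (gauss ι) :=
    (integrable_const A).add ((integrable_finsetSum _ fun i _ => (integrable_eval i).abs).const_mul B)
  exact hi.mono' hc.aestronglyMeasurable (ae_of_all _ h)

omit [Nonempty X] [Fintype X] in
lemma integrable_gauss_bound {F : (ι → ℝ) → ℝ} (hc : Continuous F) {B : ℝ} (h : ∀ g, |F g| ≤ B) :
    Integrable F (gauss ι) :=
  Integrable.of_bound hc.aestronglyMeasurable B (ae_of_all _ h)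

lemma integrable_lse {a : ι → X → ℝ} {B : ℝ} (h : ∀ i x, |a i x| ≤ B) :
    Integrable (fun g => lse (wsum a g)) (gauss ι) := by
  refine integrable_of_linear_bound (by fun_prop) (A := |lse (fun _ : X => (0:ℝ))|) (B := B)
    fun g => ?_
  have := abs_lse_sub_le (v := fun _ => 0) (w := wsum a g) (M := B * ∑ i, |g i|) fun x => by
    rw [sub_zero]; exact abs_wsum_le h g x
  have := abs_add_le (lse (wsum a g) - lse (fun _ : X => (0:ℝ))) (lse (fun _ : X => (0:ℝ)))
  rw [sub_add_cancel] at this
  linarith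

/-- Resampling one coordinate preserves the law. -/
lemma gauss_update (i : ι) :
    MeasurePreserving (fun q : (ι → ℝ) × ℝ => Function.update q.1 i q.2)
      ((gauss ι).prod (gaussianReal 0 1)) (gauss ι) := by
  refine ⟨measurable_update'.comp measurable_id, ?_⟩
  refine (Measure.pi_eq fun s hs => ?_).symm
  have hm : Measurable fun q : (ι → ℝ) × ℝ => Function.update q.1 i q.2 := measurable_update'
  rw [Measure.map_apply hm (MeasurableSet.univ_pi hs)]
  have : (fun q : (ι → ℝ) × ℝ => Function.update q.1 i q.2) ⁻¹' Set.univ.pi s =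
      Set.univ.pi (Function.update s i Set.univ) ×ˢ s i := by
    ext ⟨g, t⟩
    simp only [Set.mem_preimage, Set.mem_pi, Set.mem_univ, true_implies, Set.mem_prod]
    constructor
    · intro h
      refine ⟨fun j => ?_, by simpa using h i⟩
      by_cases hj : j = i
      · subst hj; simp
      · simpa [hj] using h j
    · intro h j
      by_cases hj : j = i
      · subst hj; simpa using h.2
      · simpa [hj] using h.1 j
  rw [this, Measure.prod_prod, gauss, Measure.pi_pi,
    ← Finset.mul_prod_erase Finset.univ (fun j => gaussianReal 0 1 (Function.update s i Set.univ j))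
      (Finset.mem_univ i),
    ← Finset.mul_prod_erase Finset.univ (fun j => gaussianReal 0 1 (s j)) (Finset.mem_univ i)]
  simp only [Function.update_self, measure_univ, one_mul]
  rw [mul_comm]
  congr 1
  exact Finset.prod_congr rfl fun j hj => by rw [Function.update_of_ne (Finset.ne_of_mem_erase hj)]

omit [Nonempty X] [Fintype X] in
lemma integral_gauss_update {F : (ι → ℝ) → ℝ} (hF : Integrable F (gauss ι)) (i : ι) :
    ∫ g, F g ∂gauss ι = ∫ g, ∫ t, F (Function.update g i t) ∂gaussianReal 0 1 ∂gauss ι := by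
  have h := gauss_update i
  have hi := h.integrable_comp_of_integrable hF
  calc ∫ g, F g ∂gauss ι
      = ∫ g, F g ∂(((gauss ι).prod (gaussianReal 0 1)).map fun q => Function.update q.1 i q.2) := by
        rw [h.map_eq]
    _ = ∫ q, F (Function.update q.1 i q.2) ∂((gauss ι).prod (gaussianReal 0 1)) :=
        integral_map h.measurable.aemeasurable (by rw [h.map_eq]; exact hF.aestronglyMeasurable)
    _ = _ := integral_prod _ hi

lemma hasDerivAt_gAvg_update (a : ι → X → ℝ) (g : ι → ℝ) (i : ι) (f : X → ℝ) (t : ℝ) :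
    HasDerivAt (fun s => gAvg (wsum a (Function.update g i s)) f)
      (gAvg (wsum a (Function.update g i t)) (fun x => f x * a i x) -
        gAvg (wsum a (Function.update g i t)) f * gAvg (wsum a (Function.update g i t)) (a i)) t := by
  have h1 : ∀ x s, wsum a (Function.update g i s) x = wsum a g x + a i x * (s - g i) := by
    intro x s
    have : ∀ j, Function.update g i s j * a j x = g j * a j x + if j = i then (s - g i) * a i x else 0 := by
      intro j
      by_cases hj : j = i
      · subst hj; simp; ring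
      · simp [hj]
    simp only [wsum, this, Finset.sum_add_distrib, Finset.sum_ite_eq', Finset.mem_univ, if_true]
    ring
  have hE : ∀ x, HasDerivAt (fun s => exp (wsum a (Function.update g i s) x))
      (exp (wsum a (Function.update g i t) x) * a i x) t := by
    intro x
    have h2 : HasDerivAt (fun s => wsum a (Function.update g i s) x) (a i x) t := by
      have := (((hasDerivAt_id t).sub_const (g i)).const_mul (a i x)).const_add (wsum a g x)
      rw [funext (h1 x)]
      simpa using this
    exact h2.exp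
  have hZ := (sum_exp_pos (wsum a (Function.update g i t))).ne'
  refine ((HasDerivAt.fun_sum fun x _ => (hE x).mul_const (f x)).div
    (HasDerivAt.fun_sum fun x _ => hE x) hZ).congr_deriv ?_
  simp only [gAvg]
  have e : ∑ x, exp (wsum a (Function.update g i t) x) * a i x * f x
      = ∑ x, exp (wsum a (Function.update g i t) x) * (f x * a i x) :=
    Finset.sum_congr rfl fun x _ => by ring
  rw [e]
  field_simp

/-- Integration by parts for a Gibbs average. -/
lemma gauss_ibp (a : ι → X → ℝ) (i : ι) (f : X → ℝ) :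
    ∫ g, g i * gAvg (wsum a g) f ∂gauss ι =
      ∫ g, (gAvg (wsum a g) (fun x => f x * a i x) -
        gAvg (wsum a g) f * gAvg (wsum a g) (a i)) ∂gauss ι := by
  set Bf := ∑ x, |f x| with hBf
  set Ba := ∑ x, |a i x| with hBa
  have hf : ∀ x, |f x| ≤ Bf := fun x =>
    Finset.single_le_sum (f := fun y => |f y|) (fun y _ => abs_nonneg _) (Finset.mem_univ x)
  have ha : ∀ x, |a i x| ≤ Ba := fun x =>
    Finset.single_le_sum (f := fun y => |a i y|) (fun y _ => abs_nonneg _) (Finset.mem_univ x)
  have hf0 : 0 ≤ Bf := Finset.sum_nonneg fun y _ => abs_nonneg _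
  have hB : ∀ g, |gAvg (wsum a g) (fun x => f x * a i x) -
      gAvg (wsum a g) f * gAvg (wsum a g) (a i)| ≤ Bf * Ba + Bf * Ba := fun g => by
    refine (abs_sub _ _).trans (add_le_add ?_ ?_)
    · exact abs_gAvg_le fun x => by
        rw [abs_mul]; exact mul_le_mul (hf x) (ha x) (abs_nonneg _) hf0
    · rw [abs_mul]; exact mul_le_mul (abs_gAvg_le hf) (abs_gAvg_le ha) (abs_nonneg _) hf0
  have h1 : Integrable (fun g => g i * gAvg (wsum a g) f) (gauss ι) :=
    ((integrable_eval i).bdd_mul (continuous_gAvg_wsum a f).aestronglyMeasurable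
      (ae_of_all _ fun g => by rw [norm_eq_abs]; exact abs_gAvg_le hf)).congr
      (ae_of_all _ fun g => mul_comm _ _)
  rw [integral_gauss_update h1 i,
    integral_gauss_update (integrable_gauss_bound (by fun_prop) hB) i]
  refine integral_congr_ae (ae_of_all _ fun g => ?_)
  simp only [Function.update_self]
  refine gaussian_ibp (B := max Bf (Bf * Ba + Bf * Ba))
    (fun t => hasDerivAt_gAvg_update a g i f t) ?_ (fun t => (abs_gAvg_le hf).trans (le_max_left _ _))
    (fun t => (hB _).trans (le_max_right _ _))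
  exact (show Continuous fun g : ι → ℝ => gAvg (wsum a g) (fun x => f x * a i x) -
      gAvg (wsum a g) f * gAvg (wsum a g) (a i) by fun_prop).comp
    (continuous_const.update i continuous_id)

/-- The derivative of a Gaussian free energy along a path of coefficients. -/
lemma hasDerivAt_free {a a' : ℝ → ι → X → ℝ} {B : ℝ}
    (hd : ∀ θ i x, HasDerivAt (fun s => a s i x) (a' θ i x) θ)
    (hB' : ∀ θ i x, |a' θ i x| ≤ B) (θ₀ : ℝ) {A : ℝ} (hB : ∀ i x, |a θ₀ i x| ≤ A) :
    HasDerivAt (fun θ => ∫ g, lse (wsum (a θ) g) ∂gauss ι)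
      (∑ i, ∫ g, (gAvg (wsum (a θ₀) g) (fun x => a' θ₀ i x * a θ₀ i x) -
        gAvg (wsum (a θ₀) g) (a' θ₀ i) * gAvg (wsum (a θ₀) g) (a θ₀ i)) ∂gauss ι) θ₀ := by
  have hderiv : ∀ g θ, HasDerivAt (fun s => lse (wsum (a s) g))
      (gAvg (wsum (a θ) g) (wsum (a' θ) g)) θ := by
    intro g θ
    have h1 : ∀ x, HasDerivAt (fun s => wsum (a s) g x) (wsum (a' θ) g x) θ := fun x =>
      HasDerivAt.fun_sum fun i _ => (hd θ i x).const_mul (g i)
    exact (HasDerivAt.fun_sum fun x _ => (h1 x).exp).log (sum_exp_pos _).ne'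
  have hsplit : ∀ θ g, gAvg (wsum (a θ) g) (wsum (a' θ) g)
      = ∑ i, g i * gAvg (wsum (a θ) g) (a' θ i) := by
    intro θ g
    simp only [gAvg, mul_div_assoc', ← Finset.sum_div]
    congr 1
    simp only [wsum, Finset.mul_sum]
    rw [Finset.sum_comm]
    exact Finset.sum_congr rfl fun i _ => Finset.sum_congr rfl fun x _ => by ring
  obtain ⟨-, h2⟩ := hasDerivAt_integral_of_dominated_loc_of_deriv_le
    (F := fun θ g => lse (wsum (a θ) g)) (F' := fun θ g => gAvg (wsum (a θ) g) (wsum (a' θ) g))
    (bound := fun g => 0 + B * ∑ i, |g i|) (μ := gauss ι) (s := Set.univ) (x₀ := θ₀) univ_mem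
    (Eventually.of_forall fun θ => (continuous_lse_wsum _).aestronglyMeasurable)
    (integrable_lse hB)
    (by simp only [hsplit]; exact Continuous.aestronglyMeasurable (by fun_prop))
    (ae_of_all _ fun g θ _ => by
      rw [norm_eq_abs, zero_add]; exact abs_gAvg_le fun x => abs_wsum_le (hB' θ) g x)
    ((integrable_const 0).add
      ((integrable_finsetSum _ fun i _ => (integrable_eval i).abs).const_mul B))
    (ae_of_all _ fun g θ _ => hderiv g θ)
  refine h2.congr_deriv ?_
  simp only [hsplit]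
  rw [integral_finsetSum _ fun i _ => ?_]
  · exact Finset.sum_congr rfl fun i _ => gauss_ibp (a θ₀) i (a' θ₀ i)
  · exact ((integrable_eval i).bdd_mul (continuous_gAvg_wsum _ _).aestronglyMeasurable
      (ae_of_all _ fun g => by rw [norm_eq_abs]; exact abs_gAvg_le (hB' θ₀ i))).congr
      (ae_of_all _ fun g => mul_comm _ _)

omit [Nonempty X] in
lemma gAvg_add (v f h : X → ℝ) : gAvg v (fun x => f x + h x) = gAvg v f + gAvg v h := by
  simp only [gAvg, mul_add, Finset.sum_add_distrib, add_div]

omit [Nonempty X] in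
lemma gAvg_const_mul (v f : X → ℝ) (c : ℝ) : gAvg v (fun x => c * f x) = c * gAvg v f := by
  simp only [gAvg, mul_div_assoc', Finset.mul_sum]
  congr 1
  exact Finset.sum_congr rfl fun x _ => by ring

omit [Nonempty X] in
lemma gAvg_sum {α : Type*} (s : Finset α) (v : X → ℝ) (f : α → X → ℝ) :
    gAvg v (fun x => ∑ a ∈ s, f a x) = ∑ a ∈ s, gAvg v (f a) := by
  simp only [gAvg, Finset.mul_sum, ← Finset.sum_div]
  rw [Finset.sum_comm]

lemma gAvg_mono {v f h : X → ℝ} (hfh : ∀ x, f x ≤ h x) : gAvg v f ≤ gAvg v h :=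
  div_le_div_of_nonneg_right (Finset.sum_le_sum fun x _ =>
    mul_le_mul_of_nonneg_left (hfh x) (exp_pos _).le) (sum_exp_pos v).le

/-- Two independent replicas. -/
noncomputable def gAvg2 (v : X → ℝ) (φ : X → X → ℝ) : ℝ := gAvg v fun x => gAvg v (φ x)

omit [Nonempty X] in
lemma gAvg2_mul (v f h : X → ℝ) : gAvg2 v (fun x y => f x * h y) = gAvg v f * gAvg v h := by
  simp only [gAvg2, gAvg_const_mul]
  rw [mul_comm (gAvg v f), ← gAvg_const_mul]
  exact congrArg (gAvg v) (funext fun x => mul_comm _ _)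

lemma gAvg2_le {v : X → ℝ} {φ : X → X → ℝ} {B : ℝ} (h : ∀ x y, φ x y ≤ B) : gAvg2 v φ ≤ B :=
  (gAvg_mono fun x => (gAvg_mono (h x)).trans_eq (gAvg_const v B)).trans_eq (gAvg_const v B)

lemma le_gAvg2 {v : X → ℝ} {φ : X → X → ℝ} {B : ℝ} (h : ∀ x y, B ≤ φ x y) : B ≤ gAvg2 v φ :=
  (gAvg_const v B).ge.trans (gAvg_mono fun x => (gAvg_const v B).ge.trans (gAvg_mono (h x)))

lemma continuous_gAvg2_wsum (a : ι → X → ℝ) (φ : X → X → ℝ) :
    Continuous fun g : ι → ℝ => gAvg2 (wsum a g) φ := by
  unfold gAvg2 gAvg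
  exact Continuous.div₀ (continuous_finsetSum _ fun x _ => (Continuous.rexp (by fun_prop)).mul
    (continuous_gAvg_wsum a (φ x))) (by fun_prop) fun g => (sum_exp_pos _).ne'

/-- `hasDerivAt_free` with two replicas. -/
lemma hasDerivAt_free2 {a a' : ℝ → ι → X → ℝ} {B : ℝ}
    (hd : ∀ θ i x, HasDerivAt (fun s => a s i x) (a' θ i x) θ)
    (hB' : ∀ θ i x, |a' θ i x| ≤ B) (θ₀ : ℝ) {A : ℝ} (hB : ∀ i x, |a θ₀ i x| ≤ A) :
    HasDerivAt (fun θ => ∫ g, lse (wsum (a θ) g) ∂gauss ι)
      (∫ g, gAvg2 (wsum (a θ₀) g) (fun x y =>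
        ∑ i, (a' θ₀ i x * a θ₀ i x - a' θ₀ i x * a θ₀ i y)) ∂gauss ι) θ₀ := by
  refine (hasDerivAt_free hd hB' θ₀ hB).congr_deriv ?_
  rw [← integral_finsetSum _ fun i _ => ?_]
  · refine integral_congr_ae (ae_of_all _ fun g => ?_)
    simp only [gAvg2, gAvg_sum]
    refine Finset.sum_congr rfl fun i _ => ?_
    set v := wsum (a θ₀) g
    have h1 : ∀ x, gAvg v (fun y => a' θ₀ i x * a θ₀ i x - a' θ₀ i x * a θ₀ i y)
        = a' θ₀ i x * a θ₀ i x + -gAvg v (a θ₀ i) * a' θ₀ i x := fun x => by
      rw [show (fun y => a' θ₀ i x * a θ₀ i x - a' θ₀ i x * a θ₀ i y)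
        = fun y => a' θ₀ i x * a θ₀ i x + (-a' θ₀ i x) * a θ₀ i y from funext fun y => by ring,
        gAvg_add, gAvg_const, gAvg_const_mul]
      ring
    simp only [h1, gAvg_add, gAvg_const_mul]
    ring
  · have hp : ∀ g, |gAvg (wsum (a θ₀) g) (fun x => a' θ₀ i x * a θ₀ i x) -
        gAvg (wsum (a θ₀) g) (a' θ₀ i) * gAvg (wsum (a θ₀) g) (a θ₀ i)| ≤ |B| * |A| + |B| * |A| :=
      fun g => by
        refine (abs_sub _ _).trans (add_le_add ?_ ?_)
        · exact abs_gAvg_le fun x => by
            rw [abs_mul]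
            exact mul_le_mul ((hB' θ₀ i x).trans (le_abs_self B)) ((hB i x).trans (le_abs_self A))
              (abs_nonneg _) (abs_nonneg _)
        · rw [abs_mul]
          exact mul_le_mul (abs_gAvg_le fun x => (hB' θ₀ i x).trans (le_abs_self B))
            (abs_gAvg_le fun x => (hB i x).trans (le_abs_self A)) (abs_nonneg _) (abs_nonneg _)
    exact integrable_gauss_bound (by fun_prop) hp

lemma integrable_gAvg2 {a : ι → X → ℝ} {φ : X → X → ℝ} {B : ℝ} (h : ∀ x y, |φ x y| ≤ B) :
    Integrable (fun g => gAvg2 (wsum a g) φ) (gauss ι) :=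
  integrable_gauss_bound (continuous_gAvg2_wsum a φ) fun g => abs_gAvg_le fun x => abs_gAvg_le (h x)

end Avg

/-- Forgetting coordinates preserves independent Gaussians. -/
lemma gauss_inl : MeasurePreserving (fun g : ι ⊕ κ → ℝ => fun i => g (Sum.inl i))
    (gauss (ι ⊕ κ)) (gauss ι) :=
  measurePreserving_fst.comp
    (measurePreserving_sumPiEquivProdPi fun _ : ι ⊕ κ => gaussianReal 0 1)

lemma gauss_inr : MeasurePreserving (fun g : ι ⊕ κ → ℝ => fun i => g (Sum.inr i))
    (gauss (ι ⊕ κ)) (gauss κ) :=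
  measurePreserving_snd.comp
    (measurePreserving_sumPiEquivProdPi fun _ : ι ⊕ κ => gaussianReal 0 1)

lemma integral_comp_mp {α γ : Type*} {mα : MeasurableSpace α} {mγ : MeasurableSpace γ}
    {μ : Measure α} {ν : Measure γ} {f : α → γ} (hf : MeasurePreserving f μ ν) {F : γ → ℝ}
    (hF : AEStronglyMeasurable F ν) : ∫ a, F (f a) ∂μ = ∫ c, F c ∂ν := by
  conv_rhs => rw [← hf.map_eq]
  exact (integral_map hf.measurable.aemeasurable (by rw [hf.map_eq]; exact hF)).symm

lemma gauss_reindex (e : ι ≃ κ) :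
    MeasurePreserving (fun g : κ → ℝ => fun i => g (e i)) (gauss κ) (gauss ι) :=
  (measurePreserving_piCongrLeft (fun _ : κ => gaussianReal 0 1) e).symm

lemma continuous_of_coord_lip {F : (ι → ℝ) → ℝ} {c : ι → ℝ}
    (hF : ∀ g g', |F g - F g'| ≤ ∑ i, c i * |g i - g' i|) : Continuous F := by
  refine (LipschitzWith.of_dist_le_mul (K := ∑ i, (c i).toNNReal) fun g g' => ?_).continuous
  rw [Real.dist_eq, NNReal.coe_sum, Finset.sum_mul]
  refine (hF g g').trans (Finset.sum_le_sum fun i _ => ?_)
  refine mul_le_mul (le_coe_toNNReal (c i)) ?_ (abs_nonneg _) (NNReal.coe_nonneg _)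
  rw [← Real.dist_eq]
  exact dist_le_pi_dist g g' i

lemma integrable_sq_of_coord_lip {F : (ι → ℝ) → ℝ} {c : ι → ℝ}
    (hF : ∀ g g', |F g - F g'| ≤ ∑ i, c i * |g i - g' i|) (M : ℝ) :
    Integrable (fun g => (F g - M) ^ 2) (gauss ι) := by
  have h2 : ∀ i, Integrable (fun g : ι → ℝ => g i ^ 2) (gauss ι) := fun i =>
    (measurePreserving_eval (fun _ : ι => gaussianReal 0 1) i).integrable_comp_of_integrable
      (memLp_id_gaussianReal 2).integrable_sq
  have hb : Integrable (fun g : ι → ℝ =>
      2 * (F 0 - M) ^ 2 + 2 * ((∑ i, c i ^ 2) * ∑ i, g i ^ 2)) (gauss ι) :=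
    (integrable_const _).add
      (((integrable_finsetSum _ fun i _ => h2 i).const_mul _).const_mul 2)
  refine hb.mono' ((((continuous_of_coord_lip hF).sub continuous_const).pow 2).aestronglyMeasurable)
    (ae_of_all _ fun g => ?_)
  rw [norm_eq_abs, abs_of_nonneg (sq_nonneg _)]
  have h := hF g 0
  simp only [Pi.zero_apply, sub_zero] at h
  have hcs := Finset.sum_mul_sq_le_sq_mul_sq Finset.univ c (fun i => |g i|)
  simp only [sq_abs] at hcs
  have : (F g - F 0) ^ 2 ≤ (∑ i, c i * |g i|) ^ 2 := by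
    rw [← sq_abs]; exact pow_le_pow_left₀ (abs_nonneg _) h 2
  nlinarith [sq_nonneg ((F g - F 0) - (F 0 - M))]

lemma integrable_of_coord_lip {F : (ι → ℝ) → ℝ} {c : ι → ℝ}
    (hF : ∀ g g', |F g - F g'| ≤ ∑ i, c i * |g i - g' i|) : Integrable F (gauss ι) := by
  refine ((integrable_const (1:ℝ)).add (integrable_sq_of_coord_lip hF 0)).mono'
    (continuous_of_coord_lip hF).aestronglyMeasurable (ae_of_all _ fun g => ?_)
  simp only [norm_eq_abs, Pi.add_apply, sub_zero]
  nlinarith [sq_nonneg (|F g| - 1), sq_abs (F g), abs_nonneg (F g)]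

/-- A function that is `c_i`-Lipschitz in each coordinate has variance at most `Σ c_i²`. -/
lemma variance_le_fin : ∀ (m : ℕ) (F : (Fin m → ℝ) → ℝ) (c : Fin m → ℝ),
    (∀ g g', |F g - F g'| ≤ ∑ i, c i * |g i - g' i|) →
    ∫ g, (F g - ∫ g', F g' ∂gauss (Fin m)) ^ 2 ∂gauss (Fin m) ≤ ∑ i, c i ^ 2 := by
  intro m
  induction m with
  | zero =>
    intro F c _
    have : ∀ g : Fin 0 → ℝ, F g = F 0 := fun g => congrArg F (Subsingleton.elim _ _)
    simp [this]
  | succ m ih =>
    intro F c hF
    set μ := gauss (Fin m)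
    set ν := gaussianReal 0 1 with hν0
    have hν : Integrable (fun t : ℝ => t) ν := (memLp_id_gaussianReal 1).integrable le_rfl
    have hν2 : Integrable (fun t : ℝ => t ^ 2) ν := (memLp_id_gaussianReal 2).integrable_sq
    have hmp : MeasurePreserving (fun q : ℝ × (Fin m → ℝ) => Fin.cons q.1 q.2) (ν.prod μ)
        (gauss (Fin (m + 1))) := by
      have h := (measurePreserving_piFinSuccAbove (fun _ : Fin (m + 1) => gaussianReal 0 1) 0).symm
      convert h using 1
      · funext q; simp [MeasurableEquiv.piFinSuccAbove, Fin.consEquiv]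
      all_goals rfl
    have hFc := continuous_of_coord_lip hF
    have hFi := integrable_of_coord_lip hF
    set M := ∫ g', F g' ∂gauss (Fin (m + 1)) with hM
    have hx : ∀ (t t' : ℝ) r, |F (Fin.cons t r) - F (Fin.cons t' r)| ≤ c 0 * |t - t'| := by
      intro t t' r
      refine (hF _ _).trans_eq ?_
      simp [Fin.sum_univ_succ]
    have hy : ∀ (t : ℝ) r r', |F (Fin.cons t r) - F (Fin.cons t r')| ≤
        ∑ i, c i.succ * |r i - r' i| := by
      intro t r r'
      refine (hF _ _).trans_eq ?_
      simp [Fin.sum_univ_succ]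
    have hti : ∀ r, Integrable (fun t => F (Fin.cons t r)) ν := fun r => by
      refine ((hν.abs.const_mul (c 0)).add (integrable_const |F (Fin.cons 0 r)|)).mono'
        (hFc.comp (by fun_prop)).aestronglyMeasurable (ae_of_all _ fun t => ?_)
      rw [norm_eq_abs]
      have h1 := hx t 0 r
      rw [sub_zero] at h1
      simp only [Pi.add_apply]
      linarith [abs_sub_abs_le_abs_sub (F (Fin.cons t r)) (F (Fin.cons 0 r))]
    set G : (Fin m → ℝ) → ℝ := fun r => ∫ t, F (Fin.cons t r) ∂ν with hG
    have hGL : ∀ r r', |G r - G r'| ≤ ∑ i, c i.succ * |r i - r' i| := by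
      intro r r'
      simp only [hG]
      rw [← integral_sub (hti r) (hti r')]
      refine abs_integral_le_integral_abs.trans ?_
      refine (integral_mono ((hti r).sub (hti r')).abs (integrable_const _)
        fun t => hy t r r').trans_eq ?_
      simp
    have hI := hmp.integrable_comp_of_integrable hFi
    have hMG : ∫ r, G r ∂μ = M := by
      rw [hM, ← integral_comp_mp hmp hFc.aestronglyMeasurable]
      exact (integral_prod_symm _ hI).symm
    have hI2 := hmp.integrable_comp_of_integrable (integrable_sq_of_coord_lip hF M)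
    rw [← integral_comp_mp hmp (F := fun g => (F g - M) ^ 2)
        ((hFc.sub continuous_const).pow 2).aestronglyMeasurable,
      show (fun q : ℝ × (Fin m → ℝ) => (F (Fin.cons q.1 q.2) - M) ^ 2)
        = (fun g => (F g - M) ^ 2) ∘ fun q : ℝ × (Fin m → ℝ) => Fin.cons q.1 q.2 from rfl,
      integral_prod_symm _ hI2]
    have hGi := integrable_sq_of_coord_lip hGL M
    have hinner : ∀ r, ∫ t, (F (Fin.cons t r) - M) ^ 2 ∂ν ≤ c 0 ^ 2 + (G r - M) ^ 2 := by
      intro r
      set a := F (Fin.cons 0 r)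
      have hsq : ∀ t, (F (Fin.cons t r) - a) ^ 2 ≤ c 0 ^ 2 * t ^ 2 := fun t => by
        have h1 := hx t 0 r
        rw [sub_zero] at h1
        rw [← sq_abs, ← mul_pow, ← sq_abs (c 0 * t), abs_mul]
        exact pow_le_pow_left₀ (abs_nonneg _)
          (h1.trans (mul_le_mul_of_nonneg_right (le_abs_self _) (abs_nonneg _))) 2
      have h1 : Integrable (fun t => (F (Fin.cons t r) - a) ^ 2) ν :=
        (hν2.const_mul (c 0 ^ 2)).mono'
          (((hFc.comp (by fun_prop)).sub continuous_const).pow 2).aestronglyMeasurable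
          (ae_of_all _ fun t => by
            rw [norm_eq_abs, abs_of_nonneg (sq_nonneg _)]; exact hsq t)
      have h2 : Integrable (fun t => F (Fin.cons t r) - a) ν := (hti r).sub (integrable_const a)
      have e : (fun t => (F (Fin.cons t r) - M) ^ 2) =
          fun t => (F (Fin.cons t r) - a) ^ 2
            + (2 * (a - M) * (F (Fin.cons t r) - a) + (a - M) ^ 2) :=
        funext fun t => by ring
      have h4 : Integrable (fun t => 2 * (a - M) * (F (Fin.cons t r) - a)) ν := h2.const_mul _
      have h5 : Integrable (fun t => 2 * (a - M) * (F (Fin.cons t r) - a) + (a - M) ^ 2) ν :=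
        h4.add (integrable_const _)
      rw [e, integral_add h1 h5, integral_add h4 (integrable_const _), integral_const_mul,
        integral_sub (hti r) (integrable_const a)]
      have h3 : ∫ t, (F (Fin.cons t r) - a) ^ 2 ∂ν ≤ c 0 ^ 2 := by
        refine (integral_mono h1 (hν2.const_mul _) hsq).trans_eq ?_
        have hv := variance_id_gaussianReal (μ := 0) (v := 1)
        rw [variance_eq_integral measurable_id.aemeasurable] at hv
        simp only [id_eq, integral_id_gaussianReal, sub_zero, NNReal.coe_one] at hv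
        rw [integral_const_mul, hv, mul_one]
      simp only [integral_const, probReal_univ, one_smul]
      nlinarith [sq_nonneg (G r - a)]
    refine (integral_mono hI2.integral_prod_right ((integrable_const _).add hGi) hinner).trans ?_
    rw [integral_add' (integrable_const _) hGi, Fin.sum_univ_succ]
    have h4 := ih G (fun i => c i.succ) hGL
    rw [hMG] at h4
    simp only [integral_const, probReal_univ, one_smul]
    linarith

/-- The mean deviation of a coordinatewise Lipschitz function of Gaussians. -/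
lemma abs_dev_le {F : (ι → ℝ) → ℝ} {c : ι → ℝ}
    (hF : ∀ g g', |F g - F g'| ≤ ∑ i, c i * |g i - g' i|) :
    ∫ g, |F g - ∫ g', F g' ∂gauss ι| ∂gauss ι ≤ sqrt (∑ i, c i ^ 2) := by
  set e := (Fintype.equivFin ι).symm
  have hmp : MeasurePreserving (fun g : ι → ℝ => fun i => g (e i)) (gauss ι)
      (gauss (Fin (Fintype.card ι))) := gauss_reindex e
  set F' : (Fin (Fintype.card ι) → ℝ) → ℝ := fun g => F fun i => g (e.symm i) with hF'
  have hL : ∀ g g', |F' g - F' g'| ≤ ∑ i, c (e i) * |g i - g' i| := fun g g' => by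
    refine (hF _ _).trans_eq ?_
    rw [← e.sum_comp]
    simp
  have hc' := continuous_of_coord_lip hL
  have hback : ∀ g : ι → ℝ, F' (fun i => g (e i)) = F g := fun g => by simp [hF']
  set M := ∫ g', F g' ∂gauss ι with hMd
  have hM : ∫ g', F' g' ∂gauss (Fin (Fintype.card ι)) = M := by
    rw [← integral_comp_mp hmp hc'.aestronglyMeasurable]; simp only [hback, hMd]
  have hv := variance_le_fin _ F' _ hL
  rw [hM, ← integral_comp_mp hmp (F := fun g => (F' g - M) ^ 2)
      ((hc'.sub continuous_const).pow 2).aestronglyMeasurable,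
    e.sum_comp fun i => c i ^ 2] at hv
  simp only [hback] at hv
  have hi := integrable_sq_of_coord_lip hF M
  have hia := ((integrable_of_coord_lip hF).sub (integrable_const M)).abs
  have h2 : (∫ g, |F g - M| ∂gauss ι) ^ 2 ≤ ∫ g, (F g - M) ^ 2 ∂gauss ι := by
    set A := ∫ g, |F g - M| ∂gauss ι
    have h := integral_nonneg (μ := gauss ι) (f := fun g => (|F g - M| - A) ^ 2) fun g => sq_nonneg _
    have e2 : (fun g => (|F g - M| - A) ^ 2) =
        fun g => (F g - M) ^ 2 + (-(2 * A) * |F g - M| + A ^ 2) := funext fun g => by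
      rw [sub_sq, sq_abs]; ring
    have h4 : Integrable (fun g => -(2 * A) * |F g - M|) (gauss ι) := hia.const_mul _
    have h5 : Integrable (fun g => -(2 * A) * |F g - M| + A ^ 2) (gauss ι) :=
      h4.add (integrable_const _)
    rw [e2, integral_add hi h5, integral_add h4 (integrable_const _), integral_const_mul] at h
    simp only [integral_const, probReal_univ, one_smul] at h
    nlinarith
  calc _ = sqrt ((∫ g, |F g - M| ∂gauss ι) ^ 2) :=
        (sqrt_sq (integral_nonneg fun g => abs_nonneg _)).symm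
    _ ≤ _ := sqrt_le_sqrt (h2.trans hv)

end Vale.Agent.P150
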