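import Vale.Agent.P150.Slope

/-!
Correlations are macroscopic for every `β > 1`.
-/

open MeasureTheory ProbabilityTheory Filter Real
open scoped Topology NNReal Classical

namespace Vale.Agent.P150

/-- The fluctuation of `lse` at inverse temperature `s`. -/
noncomputable def lseDev (n : ℕ) (s : ℝ) (g : Edge n → ℝ) : ℝ :=
  |lse (wsum (pairCoef n (s / √n)) g) - free n (s / √n)|

lemma integrable_lseDev (n : ℕ) (s : ℝ) : Integrable (lseDev n s) (disorder n) := by
  rw [disorder_eq]
  exact ((integrable_lse fun e x => abs_pairCoef (s / √n) e x).sub (integrable_const _)).abs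

lemma lseDev_nonneg (n : ℕ) (s : ℝ) (g : Edge n → ℝ) : 0 ≤ lseDev n s g := abs_nonneg _

lemma integral_lseDev_le (n : ℕ) (s : ℝ) : ∫ g, lseDev n s g ∂disorder n ≤ |s| * √n := by
  rcases Nat.eq_zero_or_pos n with rfl | hn
  · simp [lseDev, disorder_eq, free, lse, wsum, Finset.univ_eq_empty]
  have hn' : (0:ℝ) < n := Nat.cast_pos.2 hn
  rw [disorder_eq]
  refine (abs_dev_le (F := fun g => lse (wsum (pairCoef n (s / √n)) g))
    (c := fun _ => |s / √n|) fun g g' => abs_lse_sub_le fun x => ?_).trans ?_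
  · simp only [wsum, ← Finset.sum_sub_distrib]
    refine (Finset.abs_sum_le_sum_abs _ _).trans (Finset.sum_le_sum fun e _ => ?_)
    rw [← sub_mul, abs_mul, mul_comm]
    exact mul_le_mul_of_nonneg_right (abs_pairCoef _ e x) (abs_nonneg _)
  · rw [← sqrt_sq (mul_nonneg (abs_nonneg s) (sqrt_nonneg _))]
    refine sqrt_le_sqrt ?_
    rw [Finset.sum_const, Finset.card_univ, nsmul_eq_mul, sq_abs, div_pow, mul_pow, sq_abs,
      sq_sqrt hn'.le]
    calc (Fintype.card (Edge n) : ℝ) * (s ^ 2 / n) ≤ (n:ℝ) ^ 2 / 2 * (s ^ 2 / n) :=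
          mul_le_mul_of_nonneg_right (card_edge_le n) (by positivity)
      _ ≤ s ^ 2 * n := by
          rw [show (n:ℝ) ^ 2 / 2 * (s ^ 2 / n) = s ^ 2 * n / 2 by field_simp]
          linarith [mul_nonneg (sq_nonneg s) hn'.le]

/-- The Gibbs energy is at most the right slope of the free energy, up to fluctuations. -/
lemma avg_energy_le {n : ℕ} (hn : 0 < n) {β h t : ℝ} (hh : 0 < h)
    (ht : (fe n (β + h) - fe n β) / h ≤ t) (g : Edge n → ℝ) :
    avg β g (fun x => energy g x) / n ≤
      t + (lseDev n (β + h) g + lseDev n β g) / (h * n) := by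
  have hn' : (0:ℝ) < n := Nat.cast_pos.2 hn
  set A := lse (wsum (pairCoef n ((β + h) / √n)) g)
  set B := lse (wsum (pairCoef n (β / √n)) g)
  have h1 : h * avg β g (fun x => energy g x) ≤ A - B := by
    refine le_trans (le_of_eq ?_) (lse_tangent _ _)
    rw [← gAvg_pairCoef, ← gAvg_const_mul]
    refine congrArg (gAvg _) (funext fun x => ?_)
    rw [wsum_pairCoef, wsum_pairCoef]; ring
  have h2 : free n ((β + h) / √n) - free n (β / √n) ≤ t * (h * n) := by
    rw [fe_eq hn, fe_eq hn, ← mul_sub]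
    have := (div_le_iff₀ hh).1 ht
    linarith [mul_le_mul_of_nonneg_left this hn'.le]
  have h3 : A - free n ((β + h) / √n) ≤ lseDev n (β + h) g := le_abs_self _
  have h4 : free n (β / √n) - B ≤ lseDev n β g := by
    rw [lseDev, abs_sub_comm]; exact le_abs_self _
  rw [show t + (lseDev n (β + h) g + lseDev n β g) / (h * n) =
      (t * (h * n) + (lseDev n (β + h) g + lseDev n β g)) / h / n by field_simp]
  refine div_le_div_of_nonneg_right ?_ hn'.le
  rw [le_div_iff₀ hh]
  linarith

/-- Correlations are macroscopic with high probability for `β > 1`. -/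
theorem corr_small_prob_lowTemp {β : ℝ} (hβ : 1 < β) :
    ∃ C κ : ℝ, 0 < C ∧ 0 < κ ∧ κ ≤ 1 ∧ ∀ δ : ℝ, 0 < δ → δ ≤ 1 → ∀ᶠ n in atTop,
      (disorder n).real {g | corr β g ≤ δ} ≤ C * δ ^ κ := by
  obtain ⟨h, t, hh, ht, hslope⟩ := exists_slope hβ
  have hβ0 : 0 < β := by linarith
  set m := β / 2 - t with hm'
  have hm : 0 < m := sub_pos.2 ht
  set κ := min 1 (m / (8 * β)) with hκ'
  have hκ : 0 < κ := lt_min one_pos (by positivity)
  have hκ1 : κ ≤ 1 := min_le_left _ _
  refine ⟨4 * (β + 1) / m, κ, by positivity, hκ, hκ1, fun δ hδ hδ1 => ?_⟩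
  have hN1 : ∀ᶠ n : ℕ in atTop, β / (2 * (n:ℝ)) ≤ m / 4 := by
    filter_upwards [tendsto_natCast_atTop_atTop.eventually_ge_atTop (2 * β / m),
      eventually_gt_atTop 0] with n hn hn0
    have hn' : (0:ℝ) < n := Nat.cast_pos.2 hn0
    have h1 := (div_le_iff₀ hm).1 hn
    rw [div_le_iff₀ (by positivity)]; linarith
  have hN2 : ∀ᶠ n : ℕ in atTop, ((β + h) + β) / h * (√(n:ℝ))⁻¹ ≤ δ ^ κ := by
    have hlim : Tendsto (fun n : ℕ => ((β + h) + β) / h * (√(n:ℝ))⁻¹) atTop
        (𝓝 (((β + h) + β) / h * 0)) :=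
      (Real.tendsto_sqrt_atTop.comp tendsto_natCast_atTop_atTop).inv_tendsto_atTop.const_mul _
    rw [mul_zero] at hlim
    exact hlim.eventually (eventually_le_nhds (Real.rpow_pos_of_pos hδ κ))
  filter_upwards [hN1, hN2, hslope, eventually_gt_atTop 0] with n hn1 hn3 hsl hn0
  have hn' : (0:ℝ) < n := Nat.cast_pos.2 hn0
  set φ : (Edge n → ℝ) → ℝ := fun g => cut δ κ (corr β g)
  have hφ0 : ∀ g, 0 ≤ φ g := fun g => (Real.exp_pos _).le
  have hφ1 : ∀ g, φ g ≤ 1 := fun g => cut_le_one hδ hκ.le (corr_nonneg β g)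
  have hφc : Continuous φ := continuous_cut_corr β hδ κ
  have hφi : Integrable φ (disorder n) :=
    integrable_of_bound hφc fun g => by rw [abs_of_nonneg (hφ0 g)]; exact hφ1 g
  set T : (Edge n → ℝ) → ℝ := fun g => (lseDev n (β + h) g + lseDev n β g) / (h * n)
  have hTi : Integrable T (disorder n) :=
    ((integrable_lseDev n (β + h)).add (integrable_lseDev n β)).div_const _
  have hT0 : ∀ g, 0 ≤ T g := fun g =>
    div_nonneg (add_nonneg (lseDev_nonneg _ _ _) (lseDev_nonneg _ _ _)) (by positivity)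
  have hTb : ∫ g, T g ∂disorder n ≤ δ ^ κ := by
    refine le_trans ?_ hn3
    have e : ((β + h) + β) / h * (√(n:ℝ))⁻¹ = (((β + h) + β) * √n) / (h * n) := by
      field_simp
      rw [sq_sqrt hn'.le]
    rw [e, integral_div, integral_add (integrable_lseDev n (β + h)) (integrable_lseDev n β)]
    refine div_le_div_of_nonneg_right ?_ (by positivity)
    have h1 := integral_lseDev_le n (β + h)
    have h2 := integral_lseDev_le n β
    rw [abs_of_pos (by linarith : 0 < β + h)] at h1
    rw [abs_of_pos hβ0] at h2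
    linarith
  set W : (Edge n → ℝ) → ℝ := fun g => φ g * (avg β g (fun x => energy g x) / n)
  have hWe : ∀ g, W g =
      (∑ e, g e * (φ g * avg β g (fun x => pairSpin x e))) / ((n:ℝ) * Real.sqrt n) := by
    intro g
    simp only [W, avg, energy, Finset.mul_sum, Finset.sum_div]
    rw [Finset.sum_comm]
    refine Finset.sum_congr rfl fun e _ => Finset.sum_congr rfl fun x _ => ?_
    ring
  have hei : ∀ e, Integrable (fun g => g e * (φ g * avg β g (fun x => pairSpin x e))) (disorder n) := by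
    intro e
    have he : Integrable (fun g : Edge n → ℝ => g e) (disorder n) := integrable_eval e
    refine (he.bdd_mul (c := 1) (hφc.mul (continuous_avg β _)).aestronglyMeasurable
      (ae_of_all _ fun g => ?_)).congr (ae_of_all _ fun g => mul_comm _ _)
    show ‖φ g * avg β g (fun x => pairSpin x e)‖ ≤ 1
    rw [Real.norm_eq_abs, abs_mul, abs_of_nonneg (hφ0 g)]
    exact mul_le_one₀ (hφ1 g) (abs_nonneg _) (abs_avg_pair_le β g e)
  have hWi : Integrable W (disorder n) :=
    ((integrable_finsetSum _ fun e _ => hei e).div_const _).congr (ae_of_all _ fun g => (hWe g).symm)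
  have hii : ∀ e, Integrable (ibpTerm β δ κ e) (disorder n) := fun e =>
    integrable_of_bound (continuous_ibpTerm β hδ κ e) (abs_ibpTerm_le hβ0.le hδ hκ.le e)
  have lower : (β * ((n - 1) / (2 * n) - 2 * κ)) * ∫ g, φ g ∂disorder n - β * δ ^ κ ≤
      ∫ g, W g ∂disorder n := by
    have e1 : ∫ g, W g ∂disorder n =
        ∫ g, (∑ e, ibpTerm β δ κ e g) / ((n:ℝ) * Real.sqrt n) ∂disorder n := by
      rw [integral_congr_ae (ae_of_all _ hWe), integral_div, integral_div,
        integral_finsetSum _ fun e _ => hei e, integral_finsetSum _ fun e _ => hii e]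
      exact congrArg (· / _) (Finset.sum_congr rfl fun e _ => integral_ibp hβ0.le hδ hκ.le e)
    rw [e1, ← integral_const_mul,
      show β * δ ^ κ = ∫ _g, β * δ ^ κ ∂disorder n by simp, ← integral_sub (hφi.const_mul _) (integrable_const _)]
    refine integral_mono ((hφi.const_mul _).sub (integrable_const _))
      ((integrable_finsetSum _ fun e _ => hii e).div_const _) fun g => ?_
    refine le_trans ?_ (sum_ibpTerm_ge hβ0.le hδ hκ.le hn0 g)
    have := cut_mul_le hδ hδ1 hκ.le hκ1 (corr_nonneg β g) (corr_le_one β g)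
    show β * ((n - 1) / (2 * n) - 2 * κ) * φ g - β * δ ^ κ ≤ _
    nlinarith
  have upper : ∫ g, W g ∂disorder n ≤ t * ∫ g, φ g ∂disorder n + δ ^ κ := by
    calc ∫ g, W g ∂disorder n ≤ ∫ g, (t * φ g + T g) ∂disorder n := by
          refine integral_mono hWi ((hφi.const_mul t).add hTi) fun g => ?_
          have h1 := avg_energy_le hn0 hh hsl g
          show φ g * (avg β g (fun x => energy g x) / n) ≤ t * φ g + T g
          calc _ ≤ φ g * (t + T g) := mul_le_mul_of_nonneg_left h1 (hφ0 g)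
            _ ≤ _ := by nlinarith [mul_le_mul_of_nonneg_right (hφ1 g) (hT0 g)]
      _ ≤ _ := by
          rw [integral_add (hφi.const_mul t) hTi, integral_const_mul]
          linarith
  have hI : 0 ≤ ∫ g, φ g ∂disorder n := integral_nonneg hφ0
  have coef : m / 2 ≤ β * ((n - 1) / (2 * n) - 2 * κ) - t := by
    have h2 : β * (2 * κ) ≤ m / 4 := by
      calc β * (2 * κ) ≤ β * (2 * (m / (8 * β))) := by gcongr; exact min_le_right _ _
        _ = m / 4 := by field_simp; ring
    have h3 : β * (((n:ℝ) - 1) / (2 * n)) = β / 2 - β / (2 * n) := by field_simp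
    rw [mul_sub, h3]
    linarith
  have hmark : (disorder n).real {g | corr β g ≤ δ} ≤ 2 * ∫ g, φ g ∂disorder n := by
    have hsub : {g | corr β g ≤ δ} ⊆ {g : Edge n → ℝ | 1 / 2 ≤ φ g} := fun g hg =>
      half_le_cut hδ hκ.le hκ1 (corr_nonneg β g) hg
    have := mul_meas_ge_le_integral_of_nonneg (ae_of_all _ hφ0) hφi (1 / 2)
    linarith [measureReal_mono (μ := disorder n) hsub]
  calc _ ≤ 2 * ∫ g, φ g ∂disorder n := hmark
    _ ≤ 2 * ((β + 1) * δ ^ κ / (m / 2)) := by
        gcongr
        rw [le_div_iff₀ (by positivity)]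
        nlinarith [mul_le_mul_of_nonneg_right coef hI]
    _ = _ := by field_simp; ring

end Vale.Agent.P150
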