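import Vale.Agent.P150.Defs

/-!
Gibbs averages, Gaussian integration by parts and a cut-off of the correlations.
-/

open MeasureTheory ProbabilityTheory Filter
open scoped Topology NNReal

namespace Vale.Agent.P150

variable {n : ℕ}

lemma pairSpin_sq (x : Conf n) (e : Edge n) : pairSpin x e ^ 2 = 1 := by
  unfold pairSpin spin; split_ifs <;> norm_num

lemma abs_pairSpin (x : Conf n) (e : Edge n) : |pairSpin x e| = 1 := by
  unfold pairSpin spin; split_ifs <;> norm_num

lemma partition_pos (β : ℝ) (g : Edge n → ℝ) : 0 < ∑ y : Conf n, Real.exp (β * energy g y) :=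
  Finset.sum_pos (fun _ _ => Real.exp_pos _) Finset.univ_nonempty

lemma gibbs_pos (β : ℝ) (g : Edge n → ℝ) (x : Conf n) : 0 < gibbs β g x :=
  div_pos (Real.exp_pos _) (partition_pos β g)

lemma sum_gibbs (β : ℝ) (g : Edge n → ℝ) : ∑ x, gibbs β g x = 1 := by
  simp only [gibbs]
  rw [← Finset.sum_div, div_self (partition_pos β g).ne']

lemma gibbs_le_one (β : ℝ) (g : Edge n → ℝ) (x : Conf n) : gibbs β g x ≤ 1 :=
  (Finset.single_le_sum (fun y _ => (gibbs_pos β g y).le) (Finset.mem_univ x)).trans_eq (sum_gibbs β g)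

lemma avg_le {β : ℝ} {g : Edge n → ℝ} {f : Conf n → ℝ} {B : ℝ} (h : ∀ x, f x ≤ B) :
    avg β g f ≤ B := by
  calc avg β g f ≤ ∑ x, gibbs β g x * B :=
        Finset.sum_le_sum fun x _ => mul_le_mul_of_nonneg_left (h x) (gibbs_pos β g x).le
    _ = B := by rw [← Finset.sum_mul, sum_gibbs, one_mul]

lemma abs_avg_le {β : ℝ} {g : Edge n → ℝ} {f : Conf n → ℝ} {B : ℝ} (h : ∀ x, |f x| ≤ B) :
    |avg β g f| ≤ B := by
  refine (Finset.abs_sum_le_sum_abs _ _).trans ?_
  calc ∑ x, |gibbs β g x * f x| ≤ ∑ x, gibbs β g x * B := Finset.sum_le_sum fun x _ => by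
        rw [abs_mul, abs_of_pos (gibbs_pos β g x)]
        exact mul_le_mul_of_nonneg_left (h x) (gibbs_pos β g x).le
    _ = B := by rw [← Finset.sum_mul, sum_gibbs, one_mul]

lemma abs_avg_pair_le (β : ℝ) (g : Edge n → ℝ) (e : Edge n) :
    |avg β g (fun x => pairSpin x e)| ≤ 1 :=
  abs_avg_le fun x => (abs_pairSpin x e).le

lemma card_edge_mul_two (n : ℕ) : (Fintype.card (Edge n) : ℝ) * 2 = (n:ℝ) * ((n:ℝ) - 1) := by
  let E : Edge n ≃ (Σ j : Fin n, Fin j.1) :=
    { toFun := fun p => ⟨p.1.2, ⟨p.1.1.1, p.2⟩⟩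
      invFun := fun q => ⟨(⟨q.2.1, q.2.2.trans q.1.2⟩, q.1), q.2.2⟩
      left_inv := fun p => rfl
      right_inv := fun q => rfl }
  rw [Fintype.card_congr E, Fintype.card_sigma]
  simp only [Fintype.card_fin]
  rw [Fin.sum_univ_eq_sum_range (fun i => i) n]
  rcases Nat.eq_zero_or_pos n with rfl | hn
  · simp
  · have h := Finset.sum_range_id_mul_two n
    have h' : ((∑ i ∈ Finset.range n, i : ℕ) : ℝ) * 2 = ((n * (n - 1) : ℕ) : ℝ) := by
      exact_mod_cast congrArg (Nat.cast : ℕ → ℝ) h
    rw [h', Nat.cast_mul, Nat.cast_sub (by omega)]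
    simp

lemma card_edge_le (n : ℕ) : (Fintype.card (Edge n) : ℝ) ≤ (n:ℝ) ^ 2 / 2 := by
  have := card_edge_mul_two n
  nlinarith [Nat.cast_nonneg (α := ℝ) n]

lemma corr_nonneg (β : ℝ) (g : Edge n → ℝ) : 0 ≤ corr β g :=
  div_nonneg (Finset.sum_nonneg fun _ _ => sq_nonneg _) (sq_nonneg _)

lemma corr_le_one (β : ℝ) (g : Edge n → ℝ) : corr β g ≤ 1 := by
  rcases Nat.eq_zero_or_pos n with rfl | hn
  · simp [corr]
  rw [corr, div_le_one (by positivity)]
  calc ∑ e, avg β g (fun x => pairSpin x e) ^ 2 ≤ ∑ _e : Edge n, (1:ℝ) :=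
        Finset.sum_le_sum fun e _ => (sq_le_one_iff_abs_le_one _).2 (abs_avg_pair_le β g e)
    _ ≤ (n:ℝ) ^ 2 := by
        simp
        nlinarith [card_edge_le n, sq_nonneg (n:ℝ)]

@[fun_prop]
lemma continuous_energy (x : Conf n) : Continuous fun g => energy g x := by
  unfold energy; fun_prop

@[fun_prop]
lemma continuous_avg (β : ℝ) (f : Conf n → ℝ) : Continuous fun g => avg β g f := by
  unfold avg gibbs
  exact continuous_finsetSum _ fun x _ => ((Real.continuous_exp.comp (by fun_prop)).div₀
    (continuous_finsetSum _ fun y _ => Real.continuous_exp.comp (by fun_prop))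
    fun g => (partition_pos β g).ne').mul continuous_const

@[fun_prop]
lemma continuous_corr (β : ℝ) : Continuous fun g : Edge n → ℝ => corr β g := by
  unfold corr; fun_prop

/-- Derivative of a Gibbs average in one coupling. -/
lemma hasDerivAt_avg (β : ℝ) (g : Edge n → ℝ) (e : Edge n) (f : Conf n → ℝ) (t : ℝ) :
    HasDerivAt (fun s => avg β (Function.update g e s) f)
      (β / Real.sqrt n * (avg β (Function.update g e t) (fun x => f x * pairSpin x e) -
        avg β (Function.update g e t) f * avg β (Function.update g e t) (fun x => pairSpin x e))) t := by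
  have hE : ∀ x, HasDerivAt (fun s => Real.exp (β * energy (Function.update g e s) x))
      (Real.exp (β * energy (Function.update g e t) x) * (β * ((Real.sqrt n)⁻¹ * pairSpin x e))) t := by
    intro x
    have h1 : ∀ s, energy (Function.update g e s) x =
        energy g x + (Real.sqrt n)⁻¹ * pairSpin x e * (s - g e) := by
      intro s
      simp only [energy]
      have : ∀ d, Function.update g e s d * pairSpin x d =
          g d * pairSpin x d + if d = e then (s - g e) * pairSpin x e else 0 := by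
        intro d
        by_cases hd : d = e
        · subst hd; simp; ring
        · simp [hd]
      simp only [this, Finset.sum_add_distrib, Finset.sum_ite_eq', Finset.mem_univ, if_true]
      ring
    have h2 : HasDerivAt (fun s => energy (Function.update g e s) x)
        ((Real.sqrt n)⁻¹ * pairSpin x e) t := by
      have := (((hasDerivAt_id t).sub_const (g e)).const_mul
        ((Real.sqrt n)⁻¹ * pairSpin x e)).const_add (energy g x)
      rw [funext h1]
      simpa using this
    exact (h2.const_mul β).exp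
  have key : ∀ g' (k : Conf n → ℝ), avg β g' k =
      (∑ x, Real.exp (β * energy g' x) * k x) / ∑ x, Real.exp (β * energy g' x) := by
    intro g' k
    simp only [avg, gibbs, Finset.sum_div]
    exact Finset.sum_congr rfl fun x _ => by ring
  simp only [key]
  have hZ := (partition_pos β (Function.update g e t)).ne'
  refine ((HasDerivAt.fun_sum fun x _ => (hE x).mul_const (f x)).div
    (HasDerivAt.fun_sum fun x _ => hE x) hZ).congr_deriv ?_
  have e1 : ∑ x, Real.exp (β * energy (Function.update g e t) x) *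
        (β * ((Real.sqrt n)⁻¹ * pairSpin x e)) * f x =
      β / Real.sqrt n * ∑ x, Real.exp (β * energy (Function.update g e t) x) * (f x * pairSpin x e) := by
    rw [Finset.mul_sum]; exact Finset.sum_congr rfl fun x _ => by ring
  have e2 : ∑ x, Real.exp (β * energy (Function.update g e t) x) *
        (β * ((Real.sqrt n)⁻¹ * pairSpin x e)) =
      β / Real.sqrt n * ∑ x, Real.exp (β * energy (Function.update g e t) x) * pairSpin x e := by
    rw [Finset.mul_sum]; exact Finset.sum_congr rfl fun x _ => by ring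
  rw [e1, e2]
  field_simp

/-- One-dimensional Gaussian integration by parts. -/
lemma gaussian_ibp {F F' : ℝ → ℝ} (hF : ∀ t, HasDerivAt F (F' t) t) (hc : Continuous F') {B : ℝ}
    (hB : ∀ t, |F t| ≤ B) (hB' : ∀ t, |F' t| ≤ B) :
    ∫ t, t * F t ∂(gaussianReal 0 1) = ∫ t, F' t ∂(gaussianReal 0 1) := by
  set p : ℝ → ℝ := fun t => gaussianPDFReal 0 1 t
  have hp : ∀ t, p t = (Real.sqrt (2 * Real.pi))⁻¹ * Real.exp (-t ^ 2 / 2) := fun t => by
    simp [p, gaussianPDFReal]
  have hd : ∀ t, HasDerivAt p (-t * p t) t := by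
    intro t
    rw [funext hp]
    exact (((hasDerivAt_pow 2 t).neg.div_const 2).exp.const_mul _).congr_deriv
      (by simp only [Pi.neg_apply]; push_cast; ring)
  have hpi : Integrable p := integrable_gaussianPDFReal 0 1
  have hcF : Continuous F := continuous_iff_continuousAt.2 fun t => (hF t).continuousAt
  have hti : Integrable fun t => -t * p t := by
    have h := (integrable_mul_exp_neg_mul_sq (b := 1 / 2) (by norm_num)).const_mul
      (-(Real.sqrt (2 * Real.pi))⁻¹)
    refine h.congr (ae_of_all _ fun t => ?_)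
    simp only [hp]
    rw [show -(1 / 2) * t ^ 2 = -t ^ 2 / 2 by ring]
    ring
  have i1 : Integrable fun t => F t * (-t * p t) :=
    hti.bdd_mul hcF.aestronglyMeasurable (ae_of_all _ fun t => by rw [Real.norm_eq_abs]; exact hB t)
  have i2 : Integrable fun t => F' t * p t :=
    hpi.bdd_mul hc.aestronglyMeasurable (ae_of_all _ fun t => by rw [Real.norm_eq_abs]; exact hB' t)
  have i3 : Integrable fun t => F t * p t :=
    hpi.bdd_mul hcF.aestronglyMeasurable (ae_of_all _ fun t => by rw [Real.norm_eq_abs]; exact hB t)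
  have h := integral_mul_deriv_eq_deriv_mul_of_integrable (fun t _ => hF t) (fun t _ => hd t) i1 i2 i3
  rw [integral_gaussianReal_eq_integral_smul one_ne_zero,
    integral_gaussianReal_eq_integral_smul one_ne_zero]
  simp only [smul_eq_mul]
  calc ∫ t, gaussianPDFReal 0 1 t * (t * F t) = ∫ t, -(F t * (-t * p t)) := by
        congr 1; funext t; simp only [p]; ring
    _ = ∫ t, F' t * p t := by rw [integral_neg, h, neg_neg]
    _ = _ := by congr 1; funext t; simp only [p]; ring

instance disorder_isProbability : IsProbabilityMeasure (disorder n) := by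
  unfold disorder; infer_instance

/-- Resampling one coupling preserves the law of the disorder. -/
lemma measurePreserving_update (e : Edge n) :
    MeasurePreserving (fun q : (Edge n → ℝ) × ℝ => Function.update q.1 e q.2)
      ((disorder n).prod (gaussianReal 0 1)) (disorder n) := by
  refine ⟨measurable_update'.comp measurable_id, ?_⟩
  refine (Measure.pi_eq fun s hs => ?_).symm
  have hm : Measurable fun q : (Edge n → ℝ) × ℝ => Function.update q.1 e q.2 := measurable_update'
  rw [Measure.map_apply hm (MeasurableSet.univ_pi hs)]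
  have : (fun q : (Edge n → ℝ) × ℝ => Function.update q.1 e q.2) ⁻¹' Set.univ.pi s =
      Set.univ.pi (Function.update s e Set.univ) ×ˢ s e := by
    ext ⟨g, t⟩
    simp only [Set.mem_preimage, Set.mem_pi, Set.mem_univ, true_implies, Set.mem_prod]
    constructor
    · intro h
      refine ⟨fun i => ?_, by simpa using h e⟩
      by_cases hi : i = e
      · subst hi; simp
      · simpa [hi] using h i
    · intro h i
      by_cases hi : i = e
      · subst hi; simpa using h.2
      · simpa [hi] using h.1 i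
  rw [this, Measure.prod_prod, disorder, Measure.pi_pi,
    ← Finset.mul_prod_erase Finset.univ (fun i => gaussianReal 0 1 (Function.update s e Set.univ i))
      (Finset.mem_univ e),
    ← Finset.mul_prod_erase Finset.univ (fun i => gaussianReal 0 1 (s i)) (Finset.mem_univ e)]
  simp only [Function.update_self, measure_univ, one_mul]
  rw [mul_comm]
  congr 1
  exact Finset.prod_congr rfl fun i hi => by rw [Function.update_of_ne (Finset.ne_of_mem_erase hi)]

lemma integral_update {F : (Edge n → ℝ) → ℝ} (hF : Integrable F (disorder n)) (e : Edge n) :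
    ∫ g, F g ∂disorder n = ∫ g, ∫ t, F (Function.update g e t) ∂gaussianReal 0 1 ∂disorder n := by
  have h := measurePreserving_update (n := n) e
  have hi := h.integrable_comp_of_integrable hF
  calc ∫ g, F g ∂disorder n
      = ∫ g, F g ∂(((disorder n).prod (gaussianReal 0 1)).map
          fun q => Function.update q.1 e q.2) := by rw [h.map_eq]
    _ = ∫ q, F (Function.update q.1 e q.2) ∂((disorder n).prod (gaussianReal 0 1)) :=
        integral_map h.measurable.aemeasurable (by rw [h.map_eq]; exact hF.aestronglyMeasurable)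
    _ = _ := integral_prod _ hi

/-- The cut-off `(δ/(δ+s))^κ`. -/
noncomputable def cut (δ κ s : ℝ) : ℝ := Real.exp (κ * (Real.log δ - Real.log (δ + s)))

lemma cut_le_one {δ κ s : ℝ} (hδ : 0 < δ) (hκ : 0 ≤ κ) (hs : 0 ≤ s) : cut δ κ s ≤ 1 := by
  refine Real.exp_le_one_iff.2 (mul_nonpos_of_nonneg_of_nonpos hκ ?_)
  linarith [Real.log_le_log hδ (by linarith : δ ≤ δ + s)]

lemma half_le_cut {δ κ s : ℝ} (hδ : 0 < δ) (hκ : 0 ≤ κ) (hκ1 : κ ≤ 1) (hs : 0 ≤ s) (h : s ≤ δ) :
    1 / 2 ≤ cut δ κ s := by
  have h2 : Real.log (δ + s) ≤ Real.log 2 + Real.log δ := by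
    rw [← Real.log_mul two_ne_zero hδ.ne']
    exact Real.log_le_log (by linarith) (by linarith)
  calc (1:ℝ) / 2 = Real.exp (-Real.log 2) := by
        rw [Real.exp_neg, Real.exp_log two_pos]; norm_num
    _ ≤ _ := Real.exp_le_exp.2 (by nlinarith [Real.log_pos one_lt_two])

lemma cut_mul_le {δ κ s : ℝ} (hδ : 0 < δ) (hδ1 : δ ≤ 1) (hκ : 0 ≤ κ) (hκ1 : κ ≤ 1) (hs : 0 ≤ s)
    (hs1 : s ≤ 1) : cut δ κ s * s ≤ δ ^ κ := by
  rcases le_or_gt s δ with h | h
  · calc cut δ κ s * s ≤ 1 * δ := mul_le_mul (cut_le_one hδ hκ hs) h hs zero_le_one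
      _ = δ ^ (1:ℝ) := by simp
      _ ≤ δ ^ κ := Real.rpow_le_rpow_of_exponent_ge hδ hδ1 hκ1
  · have hs0 : 0 < s := hδ.trans h
    calc cut δ κ s * s = Real.exp (κ * (Real.log δ - Real.log (δ + s)) + Real.log s) := by
          rw [Real.exp_add, Real.exp_log hs0]; rfl
      _ ≤ Real.exp (Real.log δ * κ) := by
          refine Real.exp_le_exp.2 ?_
          have h1 : Real.log s ≤ Real.log (δ + s) := Real.log_le_log hs0 (by linarith)
          nlinarith [Real.log_nonpos hs hs1]
      _ = δ ^ κ := (Real.rpow_def_of_pos hδ κ).symm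

/-- The derivative of `cut (corr) * avg(pairSpin e)` in the coupling `e`. -/
noncomputable def ibpTerm (β δ κ : ℝ) (e : Edge n) (g : Edge n → ℝ) : ℝ :=
  -(κ * cut δ κ (corr β g) / (δ + corr β g)) *
      ((∑ d, 2 * avg β g (fun x => pairSpin x d) * (β / Real.sqrt n *
        (avg β g (fun x => pairSpin x d * pairSpin x e) -
          avg β g (fun x => pairSpin x d) * avg β g (fun x => pairSpin x e)))) / (n:ℝ) ^ 2) *
      avg β g (fun x => pairSpin x e) +
    cut δ κ (corr β g) * (β / Real.sqrt n * (1 - avg β g (fun x => pairSpin x e) ^ 2))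

lemma hasDerivAt_cut_mul (β : ℝ) {δ : ℝ} (hδ : 0 < δ) (κ : ℝ) (g : Edge n → ℝ) (e : Edge n) (t : ℝ) :
    HasDerivAt (fun s => cut δ κ (corr β (Function.update g e s)) *
        avg β (Function.update g e s) (fun x => pairSpin x e))
      (ibpTerm β δ κ e (Function.update g e t)) t := by
  set g' := Function.update g e t
  have hS : HasDerivAt (fun s => corr β (Function.update g e s))
      ((∑ d, 2 * avg β g' (fun x => pairSpin x d) * (β / Real.sqrt n *
        (avg β g' (fun x => pairSpin x d * pairSpin x e) -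
          avg β g' (fun x => pairSpin x d) * avg β g' (fun x => pairSpin x e)))) / (n:ℝ) ^ 2) t := by
    refine ((HasDerivAt.fun_sum fun d _ =>
      (hasDerivAt_avg β g e (fun x => pairSpin x d) t).pow 2).div_const _).congr_deriv ?_
    simp [g']
  have hpos : δ + corr β g' ≠ 0 := (by linarith [corr_nonneg β g'] : 0 < δ + corr β g').ne'
  have hc := (((((hS.const_add δ).log hpos).const_sub (Real.log δ)).const_mul κ).exp).mul
    (hasDerivAt_avg β g e (fun x => pairSpin x e) t)
  refine hc.congr_deriv ?_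
  have hone : avg β g' (fun x => pairSpin x e * pairSpin x e) = 1 := by
    simp only [← sq, pairSpin_sq, avg, mul_one, sum_gibbs]
  simp only [ibpTerm, cut]
  rw [hone]
  ring

lemma continuous_cut_corr (β : ℝ) {δ : ℝ} (hδ : 0 < δ) (κ : ℝ) :
    Continuous fun g : Edge n → ℝ => cut δ κ (corr β g) := by
  unfold cut
  exact Real.continuous_exp.comp (continuous_const.mul (continuous_const.sub
    ((continuous_const.add (continuous_corr β)).log fun g =>
      (by linarith [corr_nonneg β g] : 0 < δ + corr β g).ne')))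

lemma continuous_ibpTerm (β : ℝ) {δ : ℝ} (hδ : 0 < δ) (κ : ℝ) (e : Edge n) :
    Continuous (ibpTerm β δ κ e) := by
  have h1 : Continuous fun g : Edge n → ℝ => κ * cut δ κ (corr β g) / (δ + corr β g) :=
    (continuous_const.mul (continuous_cut_corr β hδ κ)).div₀
      (continuous_const.add (continuous_corr β))
      fun g => (by linarith [corr_nonneg β g] : 0 < δ + corr β g).ne'
  have h2 := continuous_cut_corr (n := n) β hδ κ
  unfold ibpTerm
  fun_prop

lemma abs_ibpTerm_le {β δ κ : ℝ} (hβ : 0 ≤ β) (hδ : 0 < δ) (hκ : 0 ≤ κ) (e : Edge n)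
    (g : Edge n → ℝ) :
    |ibpTerm β δ κ e g| ≤ κ / δ * ((∑ _d : Edge n, 2 * (β / Real.sqrt n * 2)) / (n:ℝ) ^ 2) +
      β / Real.sqrt n := by
  have hS := corr_nonneg β g
  have hc0 : 0 ≤ cut δ κ (corr β g) := (Real.exp_pos _).le
  have hc1 := cut_le_one hδ hκ hS
  have ha := abs_avg_pair_le β g e
  refine (abs_add_le _ _).trans (add_le_add ?_ ?_)
  · rw [abs_mul, abs_mul, abs_neg]
    have h1 : |κ * cut δ κ (corr β g) / (δ + corr β g)| ≤ κ / δ := by
      rw [abs_of_nonneg (by positivity)]
      exact div_le_div₀ hκ (mul_le_of_le_one_right hκ hc1) hδ (by linarith)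
    have h2 : |(∑ d, 2 * avg β g (fun x => pairSpin x d) * (β / Real.sqrt n *
        (avg β g (fun x => pairSpin x d * pairSpin x e) -
          avg β g (fun x => pairSpin x d) * avg β g (fun x => pairSpin x e)))) / (n:ℝ) ^ 2| ≤
        (∑ _d : Edge n, 2 * (β / Real.sqrt n * 2)) / (n:ℝ) ^ 2 := by
      rw [abs_div, abs_of_nonneg (sq_nonneg (n:ℝ))]
      refine div_le_div_of_nonneg_right ((Finset.abs_sum_le_sum_abs _ _).trans
        (Finset.sum_le_sum fun d _ => ?_)) (sq_nonneg _)
      rw [abs_mul, abs_mul, abs_mul, abs_two, abs_of_nonneg (by positivity : 0 ≤ β / Real.sqrt n)]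
      have hd := abs_avg_pair_le β g d
      have h3 : |avg β g (fun x => pairSpin x d * pairSpin x e) -
          avg β g (fun x => pairSpin x d) * avg β g (fun x => pairSpin x e)| ≤ 2 := by
        refine (abs_sub _ _).trans ?_
        have := abs_avg_le (β := β) (g := g) (f := fun x => pairSpin x d * pairSpin x e) (B := 1)
          fun x => by rw [abs_mul, abs_pairSpin, abs_pairSpin, one_mul]
        rw [abs_mul]
        linarith [mul_le_one₀ hd (abs_nonneg _) ha]
      calc 2 * |avg β g (fun x => pairSpin x d)| * (β / Real.sqrt n * _)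
          ≤ 2 * 1 * (β / Real.sqrt n * 2) := by gcongr
        _ = _ := by ring
    calc _ ≤ κ / δ * ((∑ _d : Edge n, 2 * (β / Real.sqrt n * 2)) / (n:ℝ) ^ 2) * 1 :=
          mul_le_mul (mul_le_mul h1 h2 (abs_nonneg _) (by positivity)) ha (abs_nonneg _)
            (by positivity)
      _ = _ := mul_one _
  · rw [abs_mul, abs_mul, abs_of_nonneg hc0, abs_of_nonneg (by positivity : 0 ≤ β / Real.sqrt n)]
    have : |1 - avg β g (fun x => pairSpin x e) ^ 2| ≤ 1 := by
      have := (sq_le_one_iff_abs_le_one _).2 ha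
      rw [abs_le]; constructor <;> nlinarith [sq_nonneg (avg β g (fun x => pairSpin x e))]
    calc _ ≤ 1 * (β / Real.sqrt n * 1) := by gcongr
      _ = _ := by ring

lemma integrable_of_bound {F : (Edge n → ℝ) → ℝ} (hc : Continuous F) {B : ℝ} (h : ∀ g, |F g| ≤ B) :
    Integrable F (disorder n) :=
  Integrable.of_bound hc.aestronglyMeasurable B (ae_of_all _ h)

lemma integral_ibp {β δ κ : ℝ} (hβ : 0 ≤ β) (hδ : 0 < δ) (hκ : 0 ≤ κ) (e : Edge n) :
    ∫ g, g e * (cut δ κ (corr β g) * avg β g (fun x => pairSpin x e)) ∂disorder n =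
      ∫ g, ibpTerm β δ κ e g ∂disorder n := by
  set F := fun g : Edge n → ℝ => cut δ κ (corr β g) * avg β g (fun x => pairSpin x e)
  have hF1 : ∀ g, |F g| ≤ 1 := fun g => by
    rw [abs_mul]
    refine mul_le_one₀ ?_ (abs_nonneg _) (abs_avg_pair_le β g e)
    rw [abs_of_pos (show 0 < cut δ κ (corr β g) from Real.exp_pos _)]
    exact cut_le_one hδ hκ (corr_nonneg β g)
  have hFc : Continuous F := (continuous_cut_corr β hδ κ).mul (continuous_avg β _)
  have he : Integrable (fun g : Edge n → ℝ => g e) (disorder n) :=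
    (measurePreserving_eval (fun _ : Edge n => gaussianReal 0 1) e).integrable_comp_of_integrable
      ((memLp_id_gaussianReal 1).integrable le_rfl)
  have h1 : Integrable (fun g => g e * F g) (disorder n) := by
    have := he.bdd_mul hFc.aestronglyMeasurable (ae_of_all _ fun g => by
      rw [Real.norm_eq_abs]; exact hF1 g)
    exact this.congr (ae_of_all _ fun g => mul_comm _ _)
  set B := κ / δ * ((∑ _d : Edge n, 2 * (β / Real.sqrt n * 2)) / (n:ℝ) ^ 2) + β / Real.sqrt n
  rw [integral_update h1 e, integral_update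
    (integrable_of_bound (continuous_ibpTerm β hδ κ e) (abs_ibpTerm_le hβ hδ hκ e)) e]
  refine integral_congr_ae (ae_of_all _ fun g => ?_)
  simp only [Function.update_self]
  refine gaussian_ibp (B := max 1 B) (fun t => hasDerivAt_cut_mul β hδ κ g e t)
    ((continuous_ibpTerm β hδ κ e).comp (by fun_prop)) (fun t => (hF1 _).trans (le_max_left _ _))
    fun t => (abs_ibpTerm_le hβ hδ hκ e _).trans (le_max_right _ _)

lemma sum_ibpTerm_ge {β δ κ : ℝ} (hβ : 0 ≤ β) (hδ : 0 < δ) (hκ : 0 ≤ κ) (hn : 0 < n)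
    (g : Edge n → ℝ) :
    β * cut δ κ (corr β g) * (((n:ℝ) - 1) / (2 * n) - corr β g - 2 * κ) ≤
      (∑ e, ibpTerm β δ κ e g) / ((n:ℝ) * Real.sqrt n) := by
  set φ := cut δ κ (corr β g)
  set S := corr β g
  set c : Edge n → ℝ := fun e => avg β g (fun x => pairSpin x e)
  have hφ : 0 ≤ φ := (Real.exp_pos _).le
  have hS : 0 ≤ S := corr_nonneg β g
  have hn' : (0:ℝ) < n := Nat.cast_pos.2 hn
  have hr : 0 < Real.sqrt n := Real.sqrt_pos.2 hn'
  have hrr : Real.sqrt n * Real.sqrt n = n := Real.mul_self_sqrt hn'.le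
  have hsum : ∑ e, c e ^ 2 = (n:ℝ) ^ 2 * S := by
    simp only [c, S, corr]; field_simp
  set V := ∑ e, ∑ d, c e * c d * (avg β g (fun x => pairSpin x d * pairSpin x e) - c d * c e)
  have hV : V ≤ (n:ℝ) ^ 4 * S := by
    have e1 : V = avg β g (fun x => (∑ d, c d * pairSpin x d) ^ 2) -
        (∑ d, c d * c d) ^ 2 := by
      have a1 : avg β g (fun x => (∑ d, c d * pairSpin x d) ^ 2) =
          ∑ e, ∑ d, c e * c d * avg β g (fun x => pairSpin x d * pairSpin x e) := by
        simp only [avg, sq, Finset.sum_mul, Finset.mul_sum]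
        rw [Finset.sum_comm]
        refine Finset.sum_congr rfl fun e _ => ?_
        rw [Finset.sum_comm]
        exact Finset.sum_congr rfl fun d _ => Finset.sum_congr rfl fun x _ => by ring
      rw [a1, sq, Finset.sum_mul_sum]
      simp only [V, mul_sub, Finset.sum_sub_distrib]
      congr 1
      exact Finset.sum_congr rfl fun e _ => Finset.sum_congr rfl fun d _ => by ring
    rw [e1]
    have h2 : avg β g (fun x => (∑ d, c d * pairSpin x d) ^ 2) ≤ (n:ℝ) ^ 4 * S := avg_le fun x => by
      refine (Finset.sum_mul_sq_le_sq_mul_sq _ _ _).trans ?_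
      rw [hsum]
      simp only [pairSpin_sq, Finset.sum_const, Finset.card_univ, nsmul_eq_mul, mul_one]
      calc (n:ℝ) ^ 2 * S * Fintype.card (Edge n) ≤ (n:ℝ) ^ 2 * S * (n:ℝ) ^ 2 := by
            gcongr
            nlinarith [card_edge_le n]
        _ = _ := by ring
    linarith [sq_nonneg (∑ d, c d * c d)]
  have e2 : ∑ e, ibpTerm β δ κ e g =
      -(κ * φ / (δ + S)) * (2 * β / Real.sqrt n / (n:ℝ) ^ 2) * V +
        φ * (β / Real.sqrt n) * ((Fintype.card (Edge n) : ℝ) - (n:ℝ) ^ 2 * S) := by
    rw [← hsum]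
    simp only [ibpTerm, Finset.sum_add_distrib, V, Finset.mul_sum, Finset.sum_div, Finset.sum_mul]
    congr 1
    · exact Finset.sum_congr rfl fun e _ => Finset.sum_congr rfl fun d _ => by simp only [c, φ, S]; ring
    · simp only [mul_sub, Finset.sum_sub_distrib, Finset.sum_const, Finset.card_univ, nsmul_eq_mul,
        Finset.mul_sum, c, φ, S]
      ring_nf
  rw [e2]
  have h3 : κ * φ / (δ + S) * (2 * β / Real.sqrt n / (n:ℝ) ^ 2) * V / ((n:ℝ) * Real.sqrt n) ≤
      β * φ * (2 * κ) := by
    calc _ ≤ κ * φ / (δ + S) * (2 * β / Real.sqrt n / (n:ℝ) ^ 2) * ((n:ℝ) ^ 4 * S) /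
          ((n:ℝ) * Real.sqrt n) := by gcongr
      _ = β * φ * (2 * κ) * (S / (δ + S)) := by
          field_simp
          rw [Real.sq_sqrt hn'.le]
      _ ≤ β * φ * (2 * κ) * 1 := by
          gcongr
          rw [div_le_one (by linarith)]; linarith
      _ = _ := mul_one _
  have h4 : φ * (β / Real.sqrt n) * ((Fintype.card (Edge n) : ℝ) - (n:ℝ) ^ 2 * S) /
      ((n:ℝ) * Real.sqrt n) = β * φ * (((n:ℝ) - 1) / (2 * n) - S) := by
    have hc := card_edge_mul_two n
    rw [show (Fintype.card (Edge n) : ℝ) = (n:ℝ) * ((n:ℝ) - 1) / 2 by linarith]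
    field_simp
    rw [Real.sq_sqrt hn'.le]
  rw [add_div, h4, neg_mul, neg_mul, neg_div]
  linarith

lemma integral_exp_linear (x : Conf n) (l : ℝ) :
    ∫ g, Real.exp (l * (energy g x / n)) ∂disorder n =
      Real.exp (l ^ 2 * (Fintype.card (Edge n) : ℝ) / (2 * (n:ℝ) ^ 3)) := by
  set a : Edge n → ℝ := fun e => l * ((Real.sqrt n)⁻¹ * pairSpin x e) / n
  have e1 : ∀ g, Real.exp (l * (energy g x / n)) = ∏ e, Real.exp (a e * g e) := fun g => by
    rw [← Real.exp_sum]
    congr 1
    simp only [energy, a, Finset.mul_sum, Finset.sum_div]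
    exact Finset.sum_congr rfl fun e _ => by ring
  simp only [e1, disorder]
  rw [integral_fintype_prod_eq_prod (fun e s => Real.exp (a e * s))]
  have e2 : ∀ e, ∫ s, Real.exp (a e * s) ∂gaussianReal 0 1 = Real.exp (a e ^ 2 / 2) := fun e => by
    have := congrFun (mgf_id_gaussianReal (μ := 0) (v := 1)) (a e)
    simpa [mgf] using this
  simp only [e2, ← Real.exp_sum]
  congr 1
  have e3 : ∀ e, a e ^ 2 = l ^ 2 / (n:ℝ) ^ 3 := fun e => by
    simp only [a, div_pow, mul_pow, inv_pow, pairSpin_sq, mul_one,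
      Real.sq_sqrt (Nat.cast_nonneg (α := ℝ) n)]
    ring
  simp only [e3, Finset.sum_const, Finset.card_univ, nsmul_eq_mul]
  ring

end Vale.Agent.P150
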