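import Vale.Agent.P150.Guerra
import Vale.Agent.P150.Cavity

/-!
The slope of the limiting free energy is below `β/2` to the right of every `β > 1`.
-/

open MeasureTheory ProbabilityTheory Filter Real
open scoped Topology NNReal Classical

namespace Vale.Agent.P150

lemma cavK_mono {u U : ℝ} (hu : 0 ≤ u) (h : u ≤ U) : cavK u ≤ cavK U := by
  unfold cavK
  have := pow_le_pow_left₀ hu h 2
  refine mul_le_mul (exp_le_exp.2 ?_) this (sq_nonneg u) (exp_pos _).le
  linarith

/-- Adding a spin raises the free energy by nearly the annealed amount when `en` is nearly `s/2`. -/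
lemma increment_ge {β γ s η : ℝ} (hβ : 1 < β) (hγ : 0 < γ) (hγ1 : γ ≤ 1) (hs : s = β + γ)
    (hη : 0 < η) {n : ℕ} (hn : 0 < n) (hnγ : 1 / γ ≤ n)
    (hd : (β / 2 - γ) * (γ / 2) ≤ fe n (β + γ / 2) - fe n β)
    (hlo : β + γ / 2 ≤ s / √((n + 1 : ℕ) : ℝ) * √(n : ℝ)) :
    log 2 + s ^ 2 / 4 - (s ^ 2 / (2 * n) + η / 2 + cavK ((β + 1) ^ 2) * γ / η)
      ≤ free (n + 1) (s / √((n + 1 : ℕ) : ℝ)) - free n (s / √(n : ℝ)) := by
  have hn' : (0:ℝ) < n := Nat.cast_pos.2 hn
  have hn1 : (0:ℝ) < ((n + 1 : ℕ) : ℝ) := by positivity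
  set b := s / √((n + 1 : ℕ) : ℝ) with hb
  set s' := b * √(n : ℝ) with hs'
  set r := √(n : ℝ) / √((n + 1 : ℕ) : ℝ) with hr
  have hs0 : 0 < s := by linarith
  have hsr : s' = s * r := by rw [hs', hb, hr]; ring
  have hr2 : r ^ 2 = (n:ℝ) / (n + 1) := by
    rw [hr, div_pow, sq_sqrt hn'.le, sq_sqrt hn1.le]; push_cast; ring
  have hr0 : 0 ≤ r := by positivity
  have hr1 : r ≤ 1 := by
    have : r ^ 2 ≤ 1 := by rw [hr2, div_le_one (by positivity)]; linarith
    nlinarith
  have hr3 : (n:ℝ) * (1 - r) ≤ 1 / 2 := by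
    have h1 : r ^ 2 * (n + 1) = n := by rw [hr2]; field_simp
    have h2 : (n:ℝ) ≤ r * (n + 1) := by nlinarith
    nlinarith [mul_nonneg hn'.le (sub_nonneg.2 hr1)]
  have hs's : s' ≤ s := by rw [hsr]; exact mul_le_of_le_one_right hs0.le hr1
  have hs'0 : 0 < s' := by linarith
  -- the mean energy at `s'`
  have t1 := fe_tangent (n := n) (β + γ / 2) β
  have t2 := fe_tangent (n := n) (β + γ / 2) s'
  have t3 := fe_tangent (n := n) s' β
  have hen : β / 2 - γ ≤ en n s' := by
    have h1 : β / 2 - γ ≤ en n (β + γ / 2) :=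
      le_of_mul_le_mul_right (show (β / 2 - γ) * (γ / 2) ≤ en n (β + γ / 2) * (γ / 2) by linarith)
        (by linarith)
    have h2 := mul_le_mul_of_nonneg_left h1 (sub_nonneg.2 hlo)
    exact le_of_mul_le_mul_right
      (show (β / 2 - γ) * (s' - β) ≤ en n s' * (s' - β) by linarith) (by linarith)
  have hC : (∫ g, corr s' g ∂disorder n) + 1 / (2 * n) ≤ 2 * γ := by
    rw [en_eq hn] at hen
    set C := ∫ g, corr s' g ∂disorder n
    have e : ((n:ℝ) - 1) / (2 * n) = 1 / 2 - 1 / (2 * n) := by field_simp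
    rw [e] at hen
    have h1 : 1 / (2 * (n:ℝ)) ≤ γ / 2 := by
      rw [div_le_div_iff₀ (by positivity) two_pos]
      have := (div_le_iff₀ hγ).1 hnγ
      linarith
    have h4 : C + 1 / (2 * n) ≤ 1 / 2 - (β / 2 - γ) / s' := by
      rw [le_sub_iff_add_le, ← le_sub_iff_add_le', div_le_iff₀ hs'0]
      linarith
    have h5 : 1 / 2 - (β / 2 - γ) / s' ≤ 2 * γ := by
      rw [sub_le_iff_le_add', ← sub_le_iff_le_add, le_div_iff₀ hs'0]
      have h7 : γ * 2 ≤ γ * (2 * β) := mul_le_mul_of_nonneg_left (by linarith) hγ.le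
      rcases le_or_gt (1 / 2 - 2 * γ) 0 with h | h
      · have := mul_le_mul_of_nonpos_left (show β ≤ s' by linarith) h
        linarith
      · have := mul_le_mul_of_nonneg_left (show s' ≤ β + γ by linarith) h.le
        linarith [mul_pos hγ hγ]
    linarith
  have hcav := cavity hn b hη
  rw [← hs'] at hcav
  have hb2 : b ^ 2 * n = s' ^ 2 := by rw [hs', mul_pow, sq_sqrt hn'.le]
  have hK : cavK (b ^ 2 * n) / (2 * η) * ((∫ g, corr s' g ∂disorder n) + 1 / (2 * n))
      ≤ cavK ((β + 1) ^ 2) * γ / η := by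
    have h1 : cavK (b ^ 2 * n) ≤ cavK ((β + 1) ^ 2) := by
      rw [hb2]; exact cavK_mono (sq_nonneg _) (pow_le_pow_left₀ hs'0.le (by linarith) 2)
    have h0 : ∀ u, 0 ≤ cavK u := fun u => mul_nonneg (exp_pos _).le (sq_nonneg u)
    calc _ ≤ cavK ((β + 1) ^ 2) / (2 * η) * (2 * γ) :=
          mul_le_mul (div_le_div_of_nonneg_right h1 (by positivity)) hC
            (add_nonneg (integral_nonneg fun g => corr_nonneg _ g) (by positivity))
            (div_nonneg (h0 _) (by positivity))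
      _ = _ := by field_simp
  have t4 := fe_tangent (n := n) s s'
  have hdiff : free n (s / √(n : ℝ)) - s ^ 2 / 4 ≤ free n b := by
    have e : b = s' / √(n : ℝ) := by rw [hs', mul_div_cancel_right₀ _ (sqrt_pos.2 hn').ne']
    rw [e, fe_eq hn, fe_eq hn]
    have h1 : (s - s') * en n s ≤ (s - s') * (s / 2) :=
      mul_le_mul_of_nonneg_left (en_le hn hs0.le) (by linarith)
    have h2 : (n:ℝ) * (s - s') ≤ s / 2 := by
      have := mul_le_mul_of_nonneg_left hr3 hs0.le
      calc (n:ℝ) * (s - s') = s * ((n:ℝ) * (1 - r)) := by rw [hsr]; ring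
        _ ≤ _ := by linarith
    have h3 := mul_le_mul_of_nonneg_left
      (show fe n s - (s - s') * (s / 2) ≤ fe n s' by linarith) hn'.le
    have h4 := mul_le_mul_of_nonneg_right h2 (show 0 ≤ s / 2 by linarith)
    linarith
  have hhalf : s ^ 2 / 2 - s ^ 2 / (2 * n) ≤ b ^ 2 * n / 2 := by
    rw [hb2, hsr, mul_pow, hr2]
    have h1 : 1 - 1 / (n:ℝ) ≤ (n:ℝ) / (n + 1) := by
      rw [one_sub_div hn'.ne', div_le_div_iff₀ hn' (by positivity)]; nlinarith
    calc s ^ 2 / 2 - s ^ 2 / (2 * n) = s ^ 2 * (1 - 1 / n) / 2 := by field_simp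
      _ ≤ _ := by gcongr
  linarith

/-- The right difference quotient of the limiting free energy is below `β/2`. -/
theorem exists_slope {β : ℝ} (hβ : 1 < β) : ∃ h t : ℝ, 0 < h ∧ t < β / 2 ∧
    ∀ᶠ n : ℕ in atTop, (fe n (β + h) - fe n β) / h ≤ t := by
  have hlim : ∀ s, ∃ F, 0 ≤ s → Tendsto (fun n => fe n s) atTop (𝓝 F) := fun s => by
    by_cases hs : 0 ≤ s
    · obtain ⟨F, hF⟩ := exists_limit hs; exact ⟨F, fun _ => hF⟩
    · exact ⟨0, fun h => absurd h hs⟩
  choose F hF using hlim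
  suffices h : ∃ h, 0 < h ∧ (F (β + h) - F β) / h < β / 2 by
    obtain ⟨h, hh, hlt⟩ := h
    refine ⟨h, ((F (β + h) - F β) / h + β / 2) / 2, hh, by linarith, ?_⟩
    exact (((hF _ (by linarith)).sub (hF _ (by linarith))).div_const h).eventually
      (eventually_le_nhds (by linarith))
  by_contra hcon
  push Not at hcon
  obtain ⟨c, hc, hgap⟩ := fe_gap hβ
  set K := cavK ((β + 1) ^ 2)
  have hK : 0 ≤ K := mul_nonneg (exp_pos _).le (sq_nonneg _)
  set η := c / 4 with hη
  set γ := min 1 (c * η / (8 * (K + 1))) with hγ'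
  have hη0 : 0 < η := by positivity
  have hγ : 0 < γ := lt_min one_pos (by positivity)
  have hKγ : K * γ / η ≤ c / 8 := by
    have h1 : γ * (8 * (K + 1)) ≤ c * η :=
      (le_div_iff₀ (show 0 < 8 * (K + 1) by positivity)).1 (min_le_right _ _)
    rw [div_le_iff₀ hη0]
    nlinarith
  set s := β + γ with hs
  have hsI : s ∈ Set.Icc β (β + 1) := ⟨by linarith, by linarith [min_le_left 1 (c * η / (8 * (K + 1)))]⟩
  have hs0 : 0 ≤ s := by linarith
  have hev1 : ∀ᶠ n : ℕ in atTop, (β / 2 - γ) * (γ / 2) ≤ fe n (β + γ / 2) - fe n β := by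
    refine ((hF _ (by linarith)).sub (hF _ (by linarith))).eventually (eventually_ge_nhds ?_)
    have h1 := hcon (γ / 2) (by linarith)
    rw [le_div_iff₀ (by linarith)] at h1
    nlinarith [mul_pos hγ hγ]
  have hev2 : ∀ᶠ n : ℕ in atTop, β + γ / 2 ≤ s / √((n + 1 : ℕ) : ℝ) * √(n : ℝ) := by
    have h1 : Tendsto (fun n : ℕ => √((n:ℝ) / (n + 1))) atTop (𝓝 1) := by
      simpa using (tendsto_natCast_div_add_atTop (1:ℝ)).sqrt
    have h2 := h1.const_mul s
    rw [mul_one] at h2
    filter_upwards [h2.eventually (eventually_ge_nhds (show β + γ / 2 < s by linarith))] with n hn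
    refine hn.trans_eq ?_
    rw [sqrt_div (Nat.cast_nonneg n)]
    push_cast; ring
  obtain ⟨N, hN⟩ := eventually_atTop.1 (((hev1.and hev2).and
    ((tendsto_natCast_atTop_atTop (R := ℝ)).eventually_ge_atTop (max (1 / γ) (4 * s ^ 2 / c)))).and
    (eventually_gt_atTop 0))
  set A := log 2 + s ^ 2 / 4 - c / 2 with hA
  have hinc : ∀ n, N ≤ n →
      free N (s / √(N : ℝ)) + ((n:ℝ) - N) * A ≤ free n (s / √(n : ℝ)) := by
    intro n hn
    induction n, hn using Nat.le_induction with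
    | base => simp
    | succ n hn ih =>
      obtain ⟨⟨⟨h1, h2⟩, h3⟩, h0⟩ := hN n hn
      have hi := increment_ge (η := η) (by linarith) hγ (min_le_left _ _) hs hη0 h0
        ((le_max_left _ _).trans h3) h1 h2
      have hn' : (0:ℝ) < n := Nat.cast_pos.2 h0
      have h4 : s ^ 2 / (2 * n) ≤ c / 8 := by
        have := (div_le_iff₀ hc).1 ((le_max_right _ _).trans h3)
        rw [div_le_div_iff₀ (by positivity) (by norm_num)]
        linarith
      push_cast
      push_cast at hi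
      linarith
  have hT : Tendsto (fun n : ℕ => A + (free N (s / √(N : ℝ)) - N * A) / n) atTop (𝓝 A) := by
    simpa using (tendsto_const_nhds (x := A)).add
      ((tendsto_const_nhds (x := free N (s / √(N : ℝ)) - N * A)).div_atTop
        (tendsto_natCast_atTop_atTop (R := ℝ)))
  obtain ⟨n, ⟨hn1, hn2⟩, hn3⟩ := ((hT.eventually (eventually_gt_nhds (show A - c / 4 < A by linarith))).and
    (eventually_ge_atTop N) |>.and (eventually_gt_atTop 0)).exists
  have h5 := hinc n hn2
  have h6 := hgap n hn3 s hsI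
  rw [fe_eq hn3] at h5
  have hn' : (0:ℝ) < n := Nat.cast_pos.2 hn3
  have h7 : (free N (s / √(N : ℝ)) - N * A) / n ≤ fe n s - A := by
    rw [div_le_iff₀ hn']; linarith
  linarith

end Vale.Agent.P150
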